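import Vale.Agent.P209.Chart

/-!
Unimodular simplices (cells) in action coordinates, their subdivision and volume.
-/

open Matrix Set MeasureTheory
open scoped Real ContDiff

namespace Vale.Agent.P209

noncomputable section

/-- The open simplex of size `s`. -/
def simplexSet (n : ℕ) (s : ℝ) : Set (Fin n → ℝ) := {μ | (∀ i, 0 < μ i) ∧ ∑ i, μ i < s}

/-- An integral affine image of an open simplex. -/
structure Cell (n : ℕ) where
  A : Matrix (Fin n) (Fin n) ℤ
  unit : IsUnit A.det
  c : Fin n → ℝ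
  size : ℝ
  size_pos : 0 < size

namespace Cell

variable {n : ℕ}

def carrier (D : Cell n) : Set (Fin n → ℝ) :=
  (fun μ => realMat D.A *ᵥ μ + D.c) '' simplexSet n D.size

lemma mulVec_inj {A : Matrix (Fin n) (Fin n) ℤ} (hA : IsUnit A.det) :
    Function.Injective fun μ : Fin n → ℝ => realMat A *ᵥ μ :=
  Function.LeftInverse.injective (g := fun x => realMat A⁻¹ *ᵥ x) fun μ => by
    simp only [mulVec_mulVec, ← realMat_mul, nonsing_inv_mul _ hA, realMat_one, one_mulVec]

lemma affine_inj (D : Cell n) :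
    Function.Injective fun μ : Fin n → ℝ => realMat D.A *ᵥ μ + D.c :=
  fun _ _ e => mulVec_inj D.unit (add_right_cancel e)

/-- The standard simplex of size `s` translated by `c`. -/
def std (s : ℝ) (hs : 0 < s) (c : Fin n → ℝ) : Cell n :=
  ⟨1, by simp, c, s, hs⟩

lemma carrier_std (s : ℝ) (hs : 0 < s) (c : Fin n → ℝ) :
    (std s hs c).carrier = (fun μ => μ + c) '' simplexSet n s := by
  simp [carrier, std, realMat_one]

/-- The same cell with a smaller size. -/
def shrink (D : Cell n) (t : ℝ) (ht : 0 < t) : Cell n := ⟨D.A, D.unit, D.c, t, ht⟩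

lemma carrier_shrink (D : Cell n) {t : ℝ} (ht : 0 < t) (htD : t ≤ D.size) :
    (D.shrink t ht).carrier ⊆ D.carrier :=
  image_mono fun _ hμ => ⟨hμ.1, hμ.2.trans_le htD⟩

/-- The sub-cell of index `g` of the subdivision of a cell into `m ^ n` cells. -/
def sub (D : Cell n) {m : ℕ} (g : Fin n → Fin m) (hm : 0 < m) : Cell n where
  A := D.A * cellMat g
  unit := by rw [det_mul]; exact D.unit.mul (isUnit_det_cellMat g)
  c := realMat D.A *ᵥ ((D.size / m) • (realMat (cumMat n)⁻¹ *ᵥ
    fun j => ((g (Tuple.sort g j)).val : ℝ))) + D.c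
  size := D.size / m
  size_pos := div_pos D.size_pos (by exact_mod_cast hm)

lemma sub_size (D : Cell n) {m : ℕ} (g : Fin n → Fin m) (hm : 0 < m) :
    (D.sub g hm).size = D.size / m := rfl

lemma sub_apply (D : Cell n) {m : ℕ} (g : Fin n → Fin m) (hm : 0 < m) (ν : Fin n → ℝ) :
    realMat (D.sub g hm).A *ᵥ ν + (D.sub g hm).c
      = realMat D.A *ᵥ ((D.size / m) • cellPoint g ((D.size / m)⁻¹ • ν)) + D.c := by
  have h : D.size / m ≠ 0 := (div_pos D.size_pos (by exact_mod_cast hm)).ne'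
  simp only [sub, realMat_mul, cellPoint]
  rw [smul_add, mulVec_smul (realMat (cellMat g)), smul_inv_smul₀ h, mulVec_add, mulVec_mulVec,
    add_assoc]

lemma scale_mem {s : ℝ} (hs : 0 < s) {ν : Fin n → ℝ} (hν : ν ∈ simplexSet n s) :
    (∀ i, 0 < (s⁻¹ • ν) i) ∧ ∑ i, (s⁻¹ • ν) i < 1 :=
  ⟨fun i => by simpa using mul_pos (inv_pos.2 hs) (hν.1 i), by
    simp only [Pi.smul_apply, smul_eq_mul, ← Finset.mul_sum]
    rw [inv_mul_lt_iff₀ hs, mul_one]; exact hν.2⟩

lemma mem_sub {D : Cell n} {m : ℕ} {g : Fin n → Fin m} {hm : 0 < m} {x : Fin n → ℝ}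
    (hx : x ∈ (D.sub g hm).carrier) :
    ∃ ν : Fin n → ℝ, ((∀ i, 0 < ν i) ∧ ∑ i, ν i < 1) ∧
      x = realMat D.A *ᵥ ((D.size / m) • cellPoint g ν) + D.c := by
  obtain ⟨ν, hν, rfl⟩ := hx
  exact ⟨_, scale_mem (D.sub g hm).size_pos hν, sub_apply D g hm ν⟩

lemma scaled_cellPoint_mem {m : ℕ} {s : ℝ} (hs : 0 < s) (g : Fin n → Fin m) (hm : 0 < m)
    {ν : Fin n → ℝ} (h0 : ∀ i, 0 < ν i) (h1 : ∑ i, ν i < 1) :
    (s / m) • cellPoint g ν ∈ simplexSet n s := by
  have hsm : 0 < s / m := div_pos hs (by exact_mod_cast hm)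
  refine ⟨fun i => by simpa using mul_pos hsm (cellPoint_pos g h0 h1 i), ?_⟩
  simp only [Pi.smul_apply, smul_eq_mul, ← Finset.mul_sum]
  rcases n.eq_zero_or_pos with h | h
  · subst h; simpa using hs
  · obtain ⟨k, rfl⟩ : ∃ k, n = k + 1 := ⟨n - 1, by omega⟩
    calc s / m * ∑ i, cellPoint g ν i < s / m * m :=
          mul_lt_mul_of_pos_left (sum_cellPoint_lt g h0 h1) hsm
      _ = s := div_mul_cancel₀ _ (by exact_mod_cast hm.ne')

lemma carrier_sub_subset (D : Cell n) {m : ℕ} (g : Fin n → Fin m) (hm : 0 < m) :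
    (D.sub g hm).carrier ⊆ D.carrier := by
  intro x hx
  obtain ⟨ν, ⟨h0, h1⟩, rfl⟩ := mem_sub hx
  exact ⟨_, scaled_cellPoint_mem D.size_pos g hm h0 h1, rfl⟩

lemma disjoint_sub (D : Cell n) {m : ℕ} {g g' : Fin n → Fin m} (hm : 0 < m) (hg : g ≠ g') :
    Disjoint (D.sub g hm).carrier (D.sub g' hm).carrier := by
  rw [disjoint_left]
  intro x hx hx'
  obtain ⟨ν, ⟨a, b⟩, rfl⟩ := mem_sub hx
  obtain ⟨ν', ⟨a', b'⟩, e⟩ := mem_sub hx'
  refine hg (cell_inj a b a' b' ?_)
  exact smul_right_injective _ (div_pos D.size_pos (by exact_mod_cast hm)).ne' (D.affine_inj e)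

/-- The common volume unit. -/
def unitVol (n : ℕ) : ℝ := (volume (simplexSet n 1)).toReal

lemma simplexSet_one_bounded : Bornology.IsBounded (simplexSet n 1) := by
  refine (Metric.isBounded_Icc (0 : Fin n → ℝ) 1).subset fun μ hμ => ⟨fun i => (hμ.1 i).le, fun i => ?_⟩
  exact (Finset.single_le_sum (fun j _ => (hμ.1 j).le) (Finset.mem_univ i)).trans hμ.2.le

lemma isOpen_simplexSet (s : ℝ) : IsOpen (simplexSet n s) := by
  simp only [simplexSet, setOf_and, setOf_forall]
  exact (isOpen_iInter_of_finite fun i => isOpen_lt continuous_const (continuous_apply i)).inter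
    (isOpen_lt (by fun_prop) continuous_const)

lemma unitVol_pos (n : ℕ) : 0 < unitVol n := by
  refine ENNReal.toReal_pos ((isOpen_simplexSet 1).measure_pos volume ?_).ne'
    simplexSet_one_bounded.measure_lt_top.ne
  refine ⟨fun _ => 1 / (n + 1 : ℝ), fun i => by positivity, ?_⟩
  simp only [Finset.sum_const, Finset.card_univ, Fintype.card_fin, nsmul_eq_mul]
  rw [← mul_div_assoc, mul_one, div_lt_one (by positivity)]
  linarith

lemma simplexSet_eq_image {s : ℝ} (hs : 0 < s) :
    simplexSet n s = (fun μ : Fin n → ℝ => s • μ) '' simplexSet n 1 := by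
  ext μ
  constructor
  · intro hμ
    exact ⟨s⁻¹ • μ, scale_mem hs hμ, smul_inv_smul₀ hs.ne' μ⟩
  · rintro ⟨ν, ⟨a, b⟩, rfl⟩
    refine ⟨fun i => by simpa using mul_pos hs (a i), ?_⟩
    simp only [Pi.smul_apply, smul_eq_mul, ← Finset.mul_sum]
    simpa using mul_lt_mul_of_pos_left b hs

lemma carrier_eq_image (D : Cell n) :
    D.carrier = (fun x => x + D.c) '' ((D.size • Matrix.toLin' (realMat D.A)) '' simplexSet n 1) := by
  rw [carrier, simplexSet_eq_image D.size_pos, image_image, image_image]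
  refine image_congr fun μ _ => ?_
  simp [mulVec_smul]

lemma measurableSet_carrier (D : Cell n) : MeasurableSet D.carrier := by
  have h : D.carrier =
      (fun x => realMat D.A⁻¹ *ᵥ (x - D.c)) ⁻¹' simplexSet n D.size := by
    ext x
    constructor
    · rintro ⟨μ, hμ, rfl⟩
      simpa [mulVec_mulVec, ← realMat_mul, nonsing_inv_mul _ D.unit, realMat_one] using hμ
    · intro hx
      refine ⟨_, hx, ?_⟩
      simp [mulVec_mulVec, ← realMat_mul, mul_nonsing_inv _ D.unit, realMat_one]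
  rw [h]
  exact ((isOpen_simplexSet _).preimage
    (Continuous.matrix_mulVec continuous_const (continuous_id.sub continuous_const))).measurableSet

lemma volume_carrier (D : Cell n) :
    volume D.carrier = ENNReal.ofReal (D.size ^ n * unitVol n) := by
  rw [carrier_eq_image, image_add_right, measure_preimage_add_right,
    Measure.addHaar_image_linearMap, LinearMap.det_smul, LinearMap.det_toLin',
    Module.finrank_fintype_fun_eq_card, Fintype.card_fin, ENNReal.ofReal_mul (pow_pos D.size_pos _).le,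
    unitVol, ENNReal.ofReal_toReal simplexSet_one_bounded.measure_lt_top.ne]
  congr 2
  have h : (realMat D.A).det = ((D.A.det : ℤ) : ℝ) :=
    ((Int.castRingHom ℝ).map_det D.A).symm
  rw [h, abs_mul, abs_of_pos (pow_pos D.size_pos _)]
  rcases Int.isUnit_iff.1 D.unit with e | e <;> simp [e]

/-- Disjoint cells inside a cell have total size at most its size. -/
lemma sum_pow_le {ι : Type*} (s : Finset ι) (F : ι → Cell n) (T : Cell n)
    (hd : (s : Set ι).PairwiseDisjoint fun i => (F i).carrier)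
    (hs : ∀ i ∈ s, (F i).carrier ⊆ T.carrier) :
    ∑ i ∈ s, (F i).size ^ n ≤ T.size ^ n := by
  have h1 : volume (⋃ i ∈ s, (F i).carrier) ≤ volume T.carrier := measure_mono (iUnion₂_subset hs)
  rw [measure_biUnion_finset hd (fun i _ => (F i).measurableSet_carrier)] at h1
  simp only [volume_carrier] at h1
  rw [← ENNReal.ofReal_sum_of_nonneg fun i _ =>
      mul_nonneg (pow_pos (F i).size_pos _).le (unitVol_pos n).le,
    ENNReal.ofReal_le_ofReal_iff (mul_nonneg (pow_pos T.size_pos _).le (unitVol_pos n).le),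
    ← Finset.sum_mul] at h1
  exact le_of_mul_le_mul_right h1 (unitVol_pos n)

end Cell

/-- Balls of capacities below the sizes of disjoint cells inside `R Δ` pack into the ball. -/
theorem hasBallPacking_of_cells {n k : ℕ} {R : ℝ} {r : Fin k → ℝ} (hr : ∀ i, 0 < r i)
    (D : Fin k → Cell n) (hsub : ∀ i, (D i).carrier ⊆ simplexSet n R)
    (hsize : ∀ i, r i < (D i).size)
    (hdisj : ∀ i j, i ≠ j → Disjoint (D i).carrier (D j).carrier) :
    HasBallPacking n k R r := by
  have h : ∀ i, ∃ (f : (Fin n → ℂ) → (Fin n → ℂ)) (U : Set (Fin n → ℂ)),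
      closedBallCap n (r i) ⊆ U ∧ IsSymplecticEmbeddingOn f U ∧
      ∀ z ∈ U, (fun j => π * ‖f z j‖^2) ∈ (D i).carrier := by
    intro i
    obtain ⟨f, U, h1, h2, h3⟩ := exists_simplex_embedding (D i).unit (D i).c (hr i) (hsize i)
      fun μ a b => (hsub i ⟨μ, ⟨a, b⟩, rfl⟩).1
    refine ⟨f, U, h1, h2, fun z hz => ?_⟩
    obtain ⟨μ, a, b, e⟩ := h3 z hz
    exact ⟨μ, ⟨a, b⟩, funext fun j => (e j).symm⟩
  choose f U hU hf hmem using h
  refine ⟨f, U, fun i => ⟨hU i, hf i, ?_⟩, fun i j hij => ?_⟩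
  · rintro _ ⟨z, hz, rfl⟩
    have := (hsub i (hmem i z (hU i hz))).2
    show π * ∑ j, ‖f i z j‖^2 < R
    rwa [Finset.mul_sum]
  · rw [disjoint_left]
    rintro w ⟨z, hz, rfl⟩ ⟨z', hz', e⟩
    refine Set.disjoint_left.1 (hdisj i j hij) (hmem i z (hU i hz)) ?_
    have := hmem j z' (hU j hz')
    rwa [e] at this

end

end Vale.Agent.P209
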