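import Mathlib

open Matrix Finset

namespace Vale.Agent.P209

noncomputable section

variable {n m : ℕ}

/-- Lower triangular matrix of ones. -/
def cumMat (n : ℕ) : Matrix (Fin n) (Fin n) ℤ := Matrix.of fun j i => if i ≤ j then 1 else 0

lemma det_cumMat (n : ℕ) : (cumMat n).det = 1 := by
  rw [Matrix.det_of_isLowerTriangular]
  · simp [cumMat]
  · intro i j hij
    have : i < j := OrderDual.toDual_lt_toDual.1 hij
    simp [cumMat, not_le.2 this]

def permMat (π : Equiv.Perm (Fin n)) : Matrix (Fin n) (Fin n) ℤ :=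
  (1 : Matrix (Fin n) (Fin n) ℤ).submatrix π id

lemma isUnit_det_permMat (π : Equiv.Perm (Fin n)) : IsUnit (permMat π).det := by
  rw [permMat, det_permute, det_one, mul_one]
  exact Units.isUnit _

/-- Linear part of the staircase cell of `f`. -/
def cellMat (f : Fin n → Fin m) : Matrix (Fin n) (Fin n) ℤ :=
  (cumMat n)⁻¹ * permMat (Tuple.sort f) * cumMat n

lemma isUnit_det_cellMat (f : Fin n → Fin m) : IsUnit (cellMat f).det := by
  rw [cellMat, det_mul, det_mul, det_nonsing_inv, det_cumMat]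
  simpa using isUnit_det_permMat (Tuple.sort f)

/-- Integer matrices acting on real vectors. -/
def realMat (A : Matrix (Fin n) (Fin n) ℤ) : Matrix (Fin n) (Fin n) ℝ :=
  A.map fun z => (z : ℝ)

lemma realMat_mul (A B : Matrix (Fin n) (Fin n) ℤ) : realMat (A * B) = realMat A * realMat B :=
  Matrix.map_mul (f := Int.castRingHom ℝ)

lemma realMat_one : realMat (1 : Matrix (Fin n) (Fin n) ℤ) = 1 := by
  simp [realMat]

def cellPoint (f : Fin n → Fin m) (μ : Fin n → ℝ) : Fin n → ℝ :=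
  realMat (cellMat f) *ᵥ μ + realMat (cumMat n)⁻¹ *ᵥ fun j => ((f (Tuple.sort f j)).val : ℝ)

lemma cum_mulVec (x : Fin n → ℝ) (j : Fin n) :
    (realMat (cumMat n) *ᵥ x) j = ∑ i ∈ Iic j, x i := by
  rw [mulVec, dotProduct, ← sum_filter_add_sum_filter_not univ (fun i => i ≤ j)]
  have h1 : univ.filter (fun i : Fin n => i ≤ j) = Iic j := by ext; simp
  rw [h1, sum_eq_zero (s := univ.filter fun i => ¬ i ≤ j), add_zero]
  · refine sum_congr rfl fun i hi => ?_
    simp [realMat, cumMat, mem_Iic.1 hi]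
  · intro i hi
    simp [realMat, cumMat, (mem_filter.1 hi).2]

lemma cum_cellPoint (f : Fin n → Fin m) (μ : Fin n → ℝ) (j : Fin n) :
    (realMat (cumMat n) *ᵥ cellPoint f μ) j
      = (∑ i ∈ Iic (Tuple.sort f j), μ i) + ((f (Tuple.sort f j)).val : ℝ) := by
  have hu : IsUnit (cumMat n).det := by simp [det_cumMat]
  rw [cellPoint, mulVec_add, mulVec_mulVec, mulVec_mulVec, ← realMat_mul, ← realMat_mul,
    cellMat, ← Matrix.mul_assoc, ← Matrix.mul_assoc, mul_nonsing_inv _ hu, Matrix.one_mul,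
    realMat_one, one_mulVec, realMat_mul, ← mulVec_mulVec, Pi.add_apply]
  congr 1
  rw [← cum_mulVec]
  set v := realMat (cumMat n) *ᵥ μ
  simp [realMat, permMat, mulVec, dotProduct, Matrix.submatrix, Matrix.one_apply]

variable {μ : Fin n → ℝ}

lemma partial_strictMono (h : ∀ i, 0 < μ i) : StrictMono fun j => ∑ i ∈ Iic j, μ i := by
  intro a b hab
  refine sum_lt_sum_of_subset (Iic_subset_Iic.2 hab.le) (i := b) (by simp) (by simpa using hab)
    (h b) fun i _ _ => (h i).le

lemma partial_bounds (h : ∀ i, 0 < μ i) (hs : ∑ i, μ i < 1) (j : Fin n) :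
    0 < (∑ i ∈ Iic j, μ i) ∧ (∑ i ∈ Iic j, μ i) < 1 :=
  ⟨sum_pos (fun i _ => h i) ⟨j, by simp⟩,
    (sum_le_sum_of_subset_of_nonneg (subset_univ _) fun i _ _ => (h i).le).trans_lt hs⟩

lemma cum_cellPoint_strictMono (f : Fin n → Fin m) (h : ∀ i, 0 < μ i) (hs : ∑ i, μ i < 1) :
    StrictMono (realMat (cumMat n) *ᵥ cellPoint f μ) := by
  intro a b hab
  rw [cum_cellPoint, cum_cellPoint]
  obtain ⟨hmono, hst⟩ := Tuple.eq_sort_iff.1 (rfl : Tuple.sort f = Tuple.sort f)
  obtain ⟨ha0, ha1⟩ := partial_bounds h hs (Tuple.sort f a)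
  obtain ⟨hb0, hb1⟩ := partial_bounds h hs (Tuple.sort f b)
  rcases eq_or_lt_of_le (hmono hab.le : f (Tuple.sort f a) ≤ f (Tuple.sort f b)) with e | e
  · have := partial_strictMono h (hst a b hab e)
    have e' : f (Tuple.sort f a) = f (Tuple.sort f b) := e
    rw [e']
    simp only at this ⊢
    linarith
  · have : ((f (Tuple.sort f a)).val : ℝ) + 1 ≤ ((f (Tuple.sort f b)).val : ℝ) := by
      have : (f (Tuple.sort f a)).val + 1 ≤ (f (Tuple.sort f b)).val := e
      exact_mod_cast this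
    linarith

lemma cum_cellPoint_pos (f : Fin n → Fin m) (h : ∀ i, 0 < μ i) (hs : ∑ i, μ i < 1) (j : Fin n) :
    0 < (realMat (cumMat n) *ᵥ cellPoint f μ) j := by
  rw [cum_cellPoint]
  have := (partial_bounds h hs (Tuple.sort f j)).1
  positivity

lemma cellPoint_pos (f : Fin n → Fin m) (h : ∀ i, 0 < μ i) (hs : ∑ i, μ i < 1) (j : Fin n) :
    0 < cellPoint f μ j := by
  obtain ⟨k, rfl⟩ : ∃ k, n = k + 1 := ⟨n - 1, by have := j.isLt; omega⟩
  induction j using Fin.cases with
  | zero =>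
    have := cum_cellPoint_pos f h hs 0
    rw [cum_mulVec, show Iic (0 : Fin (k+1)) = {0} by ext; simp, sum_singleton] at this
    exact this
  | succ i =>
    have := cum_cellPoint_strictMono f h hs (Fin.castSucc_lt_succ (i := i))
    rw [cum_mulVec, cum_mulVec,
      show Iic i.succ = insert i.succ (Iic i.castSucc) by
        ext x; simp [Fin.le_def, Fin.ext_iff]; omega,
      sum_insert (by simp [Fin.le_def])] at this
    linarith

lemma sum_cellPoint {k : ℕ} (f : Fin (k+1) → Fin m) {μ : Fin (k+1) → ℝ} :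
    ∑ j, cellPoint f μ j = (realMat (cumMat (k+1)) *ᵥ cellPoint f μ) (Fin.last k) := by
  rw [cum_mulVec]
  exact sum_congr (by ext; simp [Fin.le_last]) fun _ _ => rfl

lemma sum_cellPoint_lt {k : ℕ} (f : Fin (k+1) → Fin m) {μ : Fin (k+1) → ℝ}
    (h : ∀ i, 0 < μ i) (hs : ∑ i, μ i < 1) : ∑ j, cellPoint f μ j < m := by
  rw [sum_cellPoint, cum_cellPoint]
  have := (partial_bounds h hs (Tuple.sort f (Fin.last k))).2
  have h2 : ((f (Tuple.sort f (Fin.last k))).val : ℝ) + 1 ≤ m := by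
    exact_mod_cast (f (Tuple.sort f (Fin.last k))).isLt
  linarith

lemma lt_sum_cellPoint {k : ℕ} (f : Fin (k+1) → Fin m) {μ : Fin (k+1) → ℝ}
    (h : ∀ i, 0 < μ i) (hs : ∑ i, μ i < 1) (i : Fin (k+1)) :
    ((f i).val : ℝ) < ∑ j, cellPoint f μ j := by
  rw [sum_cellPoint, cum_cellPoint]
  have h1 := (partial_bounds h hs (Tuple.sort f (Fin.last k))).1
  have h2 : f i ≤ f (Tuple.sort f (Fin.last k)) := by
    simpa using Tuple.monotone_sort f (Fin.le_last ((Tuple.sort f).symm i))
  have : ((f i).val : ℝ) ≤ ((f (Tuple.sort f (Fin.last k))).val : ℝ) := by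
    exact_mod_cast h2
  linarith

lemma cell_inj {f g : Fin n → Fin m} {μ ν : Fin n → ℝ}
    (hμ : ∀ i, 0 < μ i) (hμ1 : ∑ i, μ i < 1) (hν : ∀ i, 0 < ν i) (hν1 : ∑ i, ν i < 1)
    (e : cellPoint f μ = cellPoint g ν) : f = g := by
  have hy : ∀ j, (∑ i ∈ Iic (Tuple.sort f j), μ i) + ((f (Tuple.sort f j)).val : ℝ)
      = (∑ i ∈ Iic (Tuple.sort g j), ν i) + ((g (Tuple.sort g j)).val : ℝ) := by
    intro j
    rw [← cum_cellPoint, ← cum_cellPoint, e]
  have hv : ∀ j, f (Tuple.sort f j) = g (Tuple.sort g j) := by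
    intro j
    obtain ⟨a0, a1⟩ := partial_bounds hμ hμ1 (Tuple.sort f j)
    obtain ⟨b0, b1⟩ := partial_bounds hν hν1 (Tuple.sort g j)
    have := hy j
    have l1 : ((f (Tuple.sort f j)).val : ℝ) < ((g (Tuple.sort g j)).val : ℝ) + 1 := by linarith
    have l2 : ((g (Tuple.sort g j)).val : ℝ) < ((f (Tuple.sort f j)).val : ℝ) + 1 := by linarith
    norm_cast at l1 l2
    exact Fin.ext (by omega)
  have hρ : StrictMono ((Tuple.sort g).symm.trans (Tuple.sort f) : Equiv.Perm (Fin n)) := by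
    intro a b hab
    have := partial_strictMono hν hab
    obtain ⟨a', rfl⟩ := (Tuple.sort g).surjective a
    obtain ⟨b', rfl⟩ := (Tuple.sort g).surjective b
    simp only [Equiv.trans_apply, Equiv.symm_apply_apply]
    apply (partial_strictMono hμ).lt_iff_lt.1
    have e1 := hy a'
    have e2 := hy b'
    rw [hv a'] at e1
    rw [hv b'] at e2
    simp only at this ⊢
    linarith
  have hπ : ∀ j, Tuple.sort f j = Tuple.sort g j := by
    intro j
    have h2 := congrFun (((StrictMono.range_inj hρ strictMono_id).1 (by simp only [Set.range_id, Equiv.range_eq_univ]))) (Tuple.sort g j)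
    simpa using h2
  funext i
  obtain ⟨j, rfl⟩ := (Tuple.sort f).surjective i
  rw [hv j, hπ j]

lemma card_touching (k p : ℕ) :
    Fintype.card {f : Fin k → Fin (p+1) // ∃ i, f i = Fin.last p} = (p+1)^k - p^k := by
  have h : Fintype.card {f : Fin k → Fin (p+1) // ∀ i, f i ≠ Fin.last p} = p^k := by
    rw [Fintype.card_congr (Equiv.subtypePiEquivPi (p := fun _ a => a ≠ Fin.last p))]
    simp [Fintype.card_subtype_compl]
  rw [← h, ← Fintype.card_congr (Equiv.subtypeEquivRight
      (p := fun f : Fin k → Fin (p+1) => ¬ ∀ i, f i ≠ Fin.last p) (fun f => by simp)),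
    Fintype.card_subtype_compl]
  simp

end

end Vale.Agent.P209
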