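import Vale.Agent.P209.Planar

open MeasureTheory Set Filter Topology
open scoped Real ContDiff Convolution

namespace Vale.Agent.P209

noncomputable section

variable {τ : ℝ} {b : ℝ → ℝ}

lemma contDiff_shearJ (h : CutHyp τ b) : ContDiff ℝ ∞ (shearJ τ b) := by
  refine contDiff_const.sub ((h.smooth.comp contDiff_snd).mul ?_)
  refine (contDiff_const.add (contDiff_fst.div ((contDiff_sqrt_sq h.pos).comp contDiff_fst) ?_)).div_const 2
  intro w
  exact (lt_of_le_of_lt (abs_nonneg _) (abs_lt_sqrt_sq h.pos w.1)).ne'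

lemma det_fderiv_shearPolar (h : CutHyp τ b) (w : ℝ × ℝ) :
    (fderiv ℝ (shearPolar τ b) w).det = shearJ τ b w := by
  rw [area2_det, area2_fderiv_shearPolar h]
  simp [area2]

def shearPolarEquiv (h : CutHyp τ b) (w : ℝ × ℝ) : (ℝ × ℝ) ≃L[ℝ] (ℝ × ℝ) :=
  (fderiv ℝ (shearPolar τ b) w).toContinuousLinearEquivOfDetNeZero
    (by rw [det_fderiv_shearPolar h]; exact (shearJ_pos h w).ne')

lemma hasFDerivAt_shearPolar (h : CutHyp τ b) (w : ℝ × ℝ) :
    HasFDerivAt (shearPolar τ b) (shearPolarEquiv h w : ℝ × ℝ →L[ℝ] ℝ × ℝ) w := by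
  rw [shearPolarEquiv, ContinuousLinearMap.coe_toContinuousLinearEquivOfDetNeZero]
  exact ((contDiff_shearPolar h).differentiable (by simp) w).hasFDerivAt

lemma isOpenEmbedding_shearPolar (h : CutHyp τ b) : IsOpenEmbedding (shearPolar τ b) := by
  refine IsOpenEmbedding.of_continuous_injective_isOpenMap (contDiff_shearPolar h).continuous
    (shearPolar_injective h) (isOpenMap_of_hasStrictFDerivAt_equiv (f' := shearPolarEquiv h) ?_)
  intro w
  exact ((contDiff_shearPolar h).contDiffAt).hasStrictFDerivAt' (hasFDerivAt_shearPolar h w) (by simp)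

/-- Transport of a function to the image of `shearPolar`, extended by zero. -/
def pushFun (τ : ℝ) (b : ℝ → ℝ) (u : ℝ × ℝ → ℝ) : ℝ × ℝ → ℝ :=
  Function.extend (shearPolar τ b) u 0

lemma pushFun_apply (h : CutHyp τ b) (u : ℝ × ℝ → ℝ) (w : ℝ × ℝ) :
    pushFun τ b u (shearPolar τ b w) = u w :=
  (shearPolar_injective h).extend_apply u 0 w

lemma pushFun_of_notMem (u : ℝ × ℝ → ℝ) {p : ℝ × ℝ} (hp : p ∉ range (shearPolar τ b)) :
    pushFun τ b u p = 0 := by
  rw [pushFun, Function.extend_apply' _ _ _ (by simpa using hp)]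
  rfl

lemma contDiff_pushFun (h : CutHyp τ b) {u : ℝ × ℝ → ℝ} (hu : ContDiff ℝ ∞ u)
    {K : Set (ℝ × ℝ)} (hK : IsCompact K) (h0 : ∀ w ∉ K, u w = 0) :
    ContDiff ℝ ∞ (pushFun τ b u) := by
  rw [contDiff_iff_contDiffAt]
  intro p
  by_cases hp : p ∈ range (shearPolar τ b)
  · let e := (isOpenEmbedding_shearPolar h).toOpenPartialHomeomorph
    have ht : p ∈ e.target := by simpa [e] using hp
    have hs : ContDiffAt ℝ ∞ e.symm p :=
      e.contDiffAt_symm ht (hasFDerivAt_shearPolar h (e.symm p))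
        (contDiff_shearPolar h).contDiffAt
    apply (hu.contDiffAt.comp p hs).congr_of_eventuallyEq
    filter_upwards [e.open_target.mem_nhds ht] with q hq
    have : shearPolar τ b (e.symm q) = q := e.right_inv hq
    simp only [Function.comp_apply]
    conv_lhs => rw [← this]
    exact pushFun_apply h u _
  · have hc : IsClosed (shearPolar τ b '' K) :=
      (hK.image (contDiff_shearPolar h).continuous).isClosed
    have hn : p ∈ (shearPolar τ b '' K)ᶜ := fun hm => hp (image_subset_range _ _ hm)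
    apply (contDiffAt_const (c := (0:ℝ))).congr_of_eventuallyEq
    filter_upwards [hc.isOpen_compl.mem_nhds hn] with q hq
    by_cases hq' : q ∈ range (shearPolar τ b)
    · obtain ⟨w, rfl⟩ := hq'
      rw [pushFun_apply h]
      exact h0 w fun hw => hq (mem_image_of_mem _ hw)
    · exact pushFun_of_notMem u hq'

lemma pushFun_eq_zero (h : CutHyp τ b) (u : ℝ × ℝ → ℝ) {p : ℝ × ℝ}
    (hp : p.1 ≤ 0 ∨ p.2 ≤ 0 ∨ 1 ≤ p.2) : pushFun τ b u p = 0 := by
  apply pushFun_of_notMem
  rintro ⟨w, rfl⟩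
  obtain ⟨a, c, d⟩ := shearPolar_mem h w
  rcases hp with hp | hp | hp <;> linarith

/-- Primitive in the second variable of a smooth function supported in a horizontal strip. -/
def prim2 (d : ℝ × ℝ → ℝ) (p : ℝ × ℝ) : ℝ :=
  ((Ici (0:ℝ)).indicator (fun _ => (1:ℝ)) ⋆[ContinuousLinearMap.mul ℝ ℝ, volume]
    (fun x => d (p.1, x))) p.2

lemma contDiff_prim2 {d : ℝ × ℝ → ℝ} (hd : ContDiff ℝ ∞ d)
    (h0 : ∀ p : ℝ × ℝ, (p.2 ≤ 0 ∨ 1 ≤ p.2) → d p = 0) : ContDiff ℝ ∞ (prim2 d) := by
  rw [← contDiffOn_univ, ← univ_prod_univ]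
  refine contDiffOn_convolution_right_with_param (n := ⊤) (ContinuousLinearMap.mul ℝ ℝ)
    (g := fun y x => d (y, x)) isOpen_univ (isCompact_Icc (a := (0:ℝ)) (b := 1)) ?_ ?_ ?_
  · intro y x _ hx
    apply h0
    simp only [mem_Icc, not_and_or, not_le] at hx
    rcases hx with hx | hx
    · exact Or.inl hx.le
    · exact Or.inr hx.le
  · exact (locallyIntegrable_const (1:ℝ)).indicator measurableSet_Ici
  · exact hd.contDiffOn

lemma prim2_eq {d : ℝ × ℝ → ℝ} (hd : ContDiff ℝ ∞ d)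
    (h0 : ∀ p : ℝ × ℝ, (p.2 ≤ 0 ∨ 1 ≤ p.2) → d p = 0) (y φ : ℝ) :
    prim2 d (y, φ) = ∫ s in (0:ℝ)..φ, d (y, s) := by
  have hi : Integrable (fun s => d (y, s)) := by
    refine (hd.continuous.comp (by fun_prop)).integrable_of_hasCompactSupport ?_
    refine HasCompactSupport.intro (isCompact_Icc (a := (0:ℝ)) (b := 1)) fun x hx => ?_
    apply h0
    simp only [mem_Icc, not_and_or, not_le] at hx
    rcases hx with hx | hx
    · exact Or.inl hx.le
    · exact Or.inr hx.le
  have h2 : prim2 d (y, φ) = ∫ s in Iic φ, d (y, s) := by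
    rw [prim2, convolution_def, ← integral_indicator measurableSet_Iic,
      ← integral_sub_left_eq_self (fun s => (Iic φ).indicator (fun s => d (y, s)) s) volume φ]
    congr 1
    ext t
    simp only [ContinuousLinearMap.mul_apply', indicator_apply, mem_Iic, mem_Ici,
      sub_le_self_iff]
    split <;> simp
  have h3 : ∫ s in Iic (0:ℝ), d (y, s) = 0 :=
    setIntegral_eq_zero_of_forall_eq_zero fun s hs => h0 _ (Or.inl hs)
  rw [h2, ← intervalIntegral.integral_Iic_sub_Iic hi.integrableOn hi.integrableOn, h3, sub_zero]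

/-- Area preserving rearrangement `(μ, φ) ↦ (A μ, θ)` of a positive density. -/
lemma exists_rearrange {d : ℝ × ℝ → ℝ} {κ c : ℝ} (hd : ContDiff ℝ ∞ d)
    (h0 : ∀ p : ℝ × ℝ, (p.2 ≤ 0 ∨ 1 ≤ p.2) → d p = 0)
    (hpos : ∀ p : ℝ × ℝ, 0 < κ + d p) :
    ∃ K : ℝ × ℝ → ℝ × ℝ, ContDiff ℝ ∞ K ∧ Function.Injective K ∧
      (∀ p a e, area2 (fderiv ℝ K p a) (fderiv ℝ K p e) = (κ + d p) * area2 a e) ∧
      (∀ p : ℝ × ℝ, 0 < p.2 → p.2 < 1 → 0 < (K p).2 ∧ (K p).2 < 1) ∧
      (∀ p : ℝ × ℝ, (K p).1 = c + ∫ t in (0:ℝ)..p.1, ∫ s in (0:ℝ)..1, (κ + d (t, s))) := by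
  let H : ℝ × ℝ → ℝ := fun p => κ * p.2 + prim2 d p
  have hH : ContDiff ℝ ∞ H := (contDiff_const.mul contDiff_snd).add (contDiff_prim2 hd h0)
  have hHi : ∀ y φ, H (y, φ) = ∫ s in (0:ℝ)..φ, (κ + d (y, s)) := by
    intro y φ
    have hc : Continuous fun s => d (y, s) := hd.continuous.comp (by fun_prop)
    rw [intervalIntegral.integral_add intervalIntegrable_const (hc.intervalIntegrable _ _)]
    simp [H, prim2_eq hd h0, mul_comm]
  have hHd : ∀ y φ, HasDerivAt (fun s => H (y, s)) (κ + d (y, φ)) φ := by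
    intro y φ
    simp only [hHi]
    exact ((continuous_const.add (hd.continuous.comp (by fun_prop))).integral_hasStrictDerivAt 0 φ).hasDerivAt
  have hHm : ∀ y, StrictMono fun s => H (y, s) := fun y =>
    strictMono_of_hasDerivAt_pos (f' := fun s => κ + d (y, s)) (hHd y) fun s => hpos _
  have hH0 : ∀ y, H (y, 0) = 0 := fun y => by simp [hHi]
  let A' : ℝ → ℝ := fun t => H (t, 1)
  have hA'c : ContDiff ℝ ∞ A' := hH.comp (contDiff_id.prodMk contDiff_const)
  have hA' : ∀ t, 0 < A' t := fun t => by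
    have := hHm t (by norm_num : (0:ℝ) < 1)
    simpa [hH0, A'] using this
  let A : ℝ → ℝ := fun y => c + ∫ t in (0:ℝ)..y, A' t
  have hAd : ∀ y, HasDerivAt A (A' y) y := fun y =>
    ((hA'c.continuous.integral_hasStrictDerivAt 0 y).hasDerivAt).const_add c
  have hAc : ContDiff ℝ ∞ A := by
    rw [contDiff_infty_iff_deriv]
    refine ⟨fun y => (hAd y).differentiableAt, ?_⟩
    rwa [deriv_eq hAd]
  have hAm : StrictMono A := strictMono_of_hasDerivAt_pos hAd hA'
  let Θ : ℝ × ℝ → ℝ := fun p => H p / A' p.1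
  have hΘ : ContDiff ℝ ∞ Θ := hH.div (hA'c.comp contDiff_fst) fun p => (hA' _).ne'
  refine ⟨fun p => (A p.1, Θ p), (hAc.comp contDiff_fst).prodMk hΘ, ?_, ?_, ?_, ?_⟩
  · rintro ⟨y, φ⟩ ⟨y', φ'⟩ e
    simp only [Prod.mk.injEq] at e
    obtain ⟨e1, e2⟩ := e
    have : y = y' := hAm.injective e1
    subst this
    have : H (y, φ) = H (y, φ') := by
      simpa [Θ, div_left_inj' (hA' y).ne'] using e2
    rw [(hHm y).injective this]
  · intro p a e
    have h1 : HasFDerivAt (fun q : ℝ × ℝ => A q.1) _ p :=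
      (hAd p.1).comp_hasFDerivAt p (hasFDerivAt_fst (𝕜 := ℝ) (E := ℝ) (F := ℝ) (p := p))
    have h2 := (hΘ.differentiable (by simp) p).hasFDerivAt
    rw [(h1.prodMk h2).fderiv]
    have hy : fderiv ℝ Θ p (0, 1) = (κ + d p) / A' p.1 := by
      have hl : HasDerivAt (fun s : ℝ => (p.1, s)) ((0:ℝ), (1:ℝ)) p.2 :=
        (hasDerivAt_const _ _).prodMk (hasDerivAt_id _)
      exact (h2.comp_hasDerivAt_of_eq p.2 hl rfl).unique ((hHd p.1 p.2).div_const (A' p.1))
    rw [area2_map]
    simp [area2, hy]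
    left
    have := (hA' p.1).ne'
    field_simp
  · intro p hp hp1
    refine ⟨div_pos ?_ (hA' _), (div_lt_one (hA' _)).2 ?_⟩
    · simpa [hH0] using hHm p.1 hp
    · exact hHm p.1 hp1
  · intro p
    simp [A, A', hHi]

lemma volume_disc {r : ℝ} (hr : 0 ≤ r) :
    volume {w : ℝ × ℝ | π * (w.1^2 + w.2^2) ≤ r} = ENNReal.ofReal r := by
  have h : Complex.measurableEquivRealProd ⁻¹' {w : ℝ × ℝ | π * (w.1^2 + w.2^2) ≤ r}
      = Metric.closedBall (0:ℂ) (√(r/π)) := by
    ext z
    simp only [Complex.measurableEquivRealProd_apply, mem_preimage, mem_ofPred_eq,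
      mem_closedBall_zero_iff, Complex.norm_def, Complex.normSq_apply]
    rw [Real.sqrt_le_sqrt_iff (by positivity), le_div_iff₀ Real.pi_pos]
    constructor <;> intro <;> nlinarith
  have hm : MeasurableSet {w : ℝ × ℝ | π * (w.1^2 + w.2^2) ≤ r} :=
    (isClosed_le (by fun_prop) continuous_const).measurableSet
  rw [← Complex.volume_preserving_equiv_real_prod.measure_preimage hm.nullMeasurableSet, h,
    Complex.volume_closedBall, ← ENNReal.ofReal_pow (Real.sqrt_nonneg _),
    Real.sq_sqrt (by positivity)]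
  rw [← ENNReal.ofReal_coe_nnreal, ← ENNReal.ofReal_mul (by positivity)]
  congr 1
  simp [NNReal.coe_real_pi, Real.pi_ne_zero]

lemma transported_mass_le (h : CutHyp τ b) {ε ρ : ℝ} (hε : ∀ y, ε ≤ |y| → b y = 0)
    (hε0 : 0 ≤ ε) (hρ : 0 ≤ ρ) {χ : ℝ × ℝ → ℝ} (hχ : ContDiff ℝ ∞ χ)
    (hχ01 : ∀ w, 0 ≤ χ w ∧ χ w ≤ 1) (hχ0 : ∀ w : ℝ × ℝ, (ρ < |w.1| ∨ ρ < |w.2|) → χ w = 0)
    {F : ℝ} (hF : 0 ≤ F) :
    ∫ p in Icc 0 F ×ˢ Icc (0:ℝ) 1, pushFun τ b (fun w => χ w / shearJ τ b w) p
      ≤ F + 4 * ρ * ε := by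
  set S := shearPolar τ b ⁻¹' (Icc 0 F ×ˢ Icc (0:ℝ) 1) with hS
  have hSm : MeasurableSet S :=
    (contDiff_shearPolar h).continuous.measurable (measurableSet_Icc.prod measurableSet_Icc)
  have e1 : ∫ p in Icc 0 F ×ˢ Icc (0:ℝ) 1, pushFun τ b (fun w => χ w / shearJ τ b w) p
      = ∫ p in shearPolar τ b '' S, pushFun τ b (fun w => χ w / shearJ τ b w) p := by
    refine (setIntegral_eq_of_subset_of_forall_sdiff_eq_zero
      (measurableSet_Icc.prod measurableSet_Icc) (image_preimage_subset _ _) ?_)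
    rintro p ⟨hp, hn⟩
    apply pushFun_of_notMem
    rintro ⟨w, rfl⟩
    exact hn ⟨w, hp, rfl⟩
  have e2 : ∫ p in shearPolar τ b '' S, pushFun τ b (fun w => χ w / shearJ τ b w) p
      = ∫ w in S, χ w := by
    rw [integral_image_eq_integral_abs_det_fderiv_smul volume hSm
      (fun w _ => ((contDiff_shearPolar h).differentiable (by simp) w).hasFDerivAt.hasFDerivWithinAt)
      (shearPolar_injective h).injOn]
    refine setIntegral_congr_fun hSm fun w _ => ?_
    rw [det_fderiv_shearPolar h, pushFun_apply h, abs_of_pos (shearJ_pos h w), smul_eq_mul]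
    field_simp [(shearJ_pos h w).ne']
  set D := {w : ℝ × ℝ | π * (w.1^2 + w.2^2) ≤ F} with hD
  set R := Icc (-ρ) ρ ×ˢ Icc (-ε) ε with hR
  have hDR : MeasurableSet (D ∪ R) :=
    ((isClosed_le (by fun_prop) continuous_const).measurableSet).union
      (measurableSet_Icc.prod measurableSet_Icc)
  have hvR : volume R = ENNReal.ofReal (4 * ρ * ε) := by
    rw [hR, Measure.volume_eq_prod, Measure.prod_prod, Real.volume_Icc, Real.volume_Icc,
      ← ENNReal.ofReal_mul (by linarith)]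
    congr 1; ring
  have hle : volume (D ∪ R) ≤ ENNReal.ofReal (F + 4 * ρ * ε) := by
    refine (measure_union_le _ _).trans ?_
    rw [hD, volume_disc hF, hvR, ENNReal.ofReal_add hF (by positivity)]
  have hfin : volume (D ∪ R) < ⊤ := hle.trans_lt ENNReal.ofReal_lt_top
  have hpt : ∀ w, S.indicator χ w ≤ (D ∪ R).indicator (fun _ => (1:ℝ)) w := by
    intro w
    by_cases hw : w ∈ S
    · rw [indicator_of_mem hw]
      by_cases hm : w ∈ D ∪ R
      · rw [indicator_of_mem hm]; exact (hχ01 w).2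
      · rw [indicator_of_notMem hm]
        by_cases hout : ρ < |w.1| ∨ ρ < |w.2|
        · rw [hχ0 w hout]
        · simp only [not_or, not_lt] at hout
          exfalso; apply hm
          by_cases hy : |w.2| ≤ ε
          · exact Or.inr ⟨abs_le.1 hout.1, abs_le.1 hy⟩
          · left
            have hb := hε w.2 (le_of_not_ge hy)
            have := hw.1.2
            simpa [hD, shearPolar, shearX, hb] using this
    · rw [indicator_of_notMem hw]
      exact indicator_nonneg (fun _ _ => zero_le_one) w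
  have hχi : Integrable χ := by
    refine hχ.continuous.integrable_of_hasCompactSupport (HasCompactSupport.intro
      (isCompact_Icc.prod isCompact_Icc : IsCompact (Icc (-ρ) ρ ×ˢ Icc (-ρ) ρ)) fun w hw => ?_)
    apply hχ0
    simp only [mem_prod, mem_Icc, ← abs_le, not_and_or, not_le] at hw
    exact hw
  rw [e1, e2, ← integral_indicator hSm]
  calc ∫ w, S.indicator χ w ≤ ∫ w, (D ∪ R).indicator (fun _ => (1:ℝ)) w :=
        integral_mono (hχi.indicator hSm)
          ((integrableOn_const hfin.ne).integrable_indicator hDR) hpt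
    _ = (volume (D ∪ R)).toReal := by
        rw [integral_indicator_const _ hDR]; simp [Measure.real]
    _ ≤ F + 4 * ρ * ε := ENNReal.toReal_le_of_le_ofReal (by positivity) hle

/-- The planar lemma. -/
theorem exists_disc_chart {a δ : ℝ} (ha : 0 < a) (hδ : 0 < δ) :
    ∃ ψ : ℝ × ℝ → ℝ × ℝ, ContDiff ℝ ∞ ψ ∧ Function.Injective ψ ∧
      ∀ w : ℝ × ℝ, π * (w.1^2 + w.2^2) < a →
        0 < (ψ w).1 ∧ (ψ w).1 ≤ π * (w.1^2 + w.2^2) + δ ∧ 0 < (ψ w).2 ∧ (ψ w).2 < 1 ∧
        ∀ u v, area2 (fderiv ℝ ψ w u) (fderiv ℝ ψ w v) = area2 u v := by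
  obtain ⟨ρ, hρ1, hρ⟩ : ∃ ρ : ℝ, 1 ≤ ρ ∧ a/π ≤ ρ^2 - 1 :=
    ⟨√(a/π) + 1, by simp, by
      have h1 := Real.sq_sqrt (div_pos ha Real.pi_pos).le
      have h2 := Real.sqrt_nonneg (a/π)
      nlinarith⟩
  set C := 1 + a + 2 * (π * (2 * ρ + 1)) + 4 * ρ with hC
  have hCp : 0 < C := by positivity
  set t := min 1 (δ / C) with ht'
  have ht : 0 < t := lt_min one_pos (div_pos hδ hCp)
  have ht1 : t ≤ 1 := min_le_left _ _
  have htC : t * C ≤ δ := (le_div_iff₀ hCp).1 (min_le_right _ _)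
  obtain ⟨b, hbs, hb01, hb1, hb0⟩ := exists_cutoff (half_pos ht) (half_lt_self ht)
  have h : CutHyp t b := ⟨ht, hbs, hb01, hb1 0 (by simp; linarith)⟩
  obtain ⟨χ₁, hχs, hχ01, hχ1, hχ0⟩ :=
    exists_cutoff (div_pos ha Real.pi_pos) (by linarith : a/π < ρ^2)
  let χ : ℝ × ℝ → ℝ := fun w => χ₁ (w.1^2 + w.2^2)
  have hχ : ContDiff ℝ ∞ χ := hχs.comp ((contDiff_fst.pow 2).add (contDiff_snd.pow 2))
  have hχout : ∀ w : ℝ × ℝ, (ρ < |w.1| ∨ ρ < |w.2|) → χ w = 0 := by
    intro w hw
    apply hχ0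
    rw [abs_of_nonneg (by positivity)]
    rcases hw with hw | hw
    · nlinarith [sq_abs w.1, sq_nonneg w.2, mul_self_lt_mul_self (by linarith) hw]
    · nlinarith [sq_abs w.2, sq_nonneg w.1, mul_self_lt_mul_self (by linarith) hw]
  have hKc : IsCompact (Icc (-ρ) ρ ×ˢ Icc (-ρ) ρ) := isCompact_Icc.prod isCompact_Icc
  have hout : ∀ w ∉ (Icc (-ρ) ρ ×ˢ Icc (-ρ) ρ), χ w = 0 := by
    intro w hw
    apply hχout
    simpa only [mem_prod, mem_Icc, ← abs_le, not_and_or, not_le] using hw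
  let u : ℝ × ℝ → ℝ := fun w => χ w / shearJ t b w
  let u' : ℝ × ℝ → ℝ := fun w => u w - t * χ w
  have hu : ContDiff ℝ ∞ u := hχ.div (contDiff_shearJ h) fun w => (shearJ_pos h w).ne'
  have hu' : ContDiff ℝ ∞ u' := hu.sub (contDiff_const.mul hχ)
  let d := pushFun t b u'
  have hd : ContDiff ℝ ∞ d :=
    contDiff_pushFun h hu' hKc fun w hw => by simp [u', u, hout w hw]
  have hdD : ContDiff ℝ ∞ (pushFun t b u) :=
    contDiff_pushFun h hu hKc fun w hw => by simp [u, hout w hw]
  have hd0 : ∀ p : ℝ × ℝ, (p.2 ≤ 0 ∨ 1 ≤ p.2) → d p = 0 :=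
    fun p hp => pushFun_eq_zero h _ (Or.inr hp)
  have hpos : ∀ p : ℝ × ℝ, 0 < t + d p := by
    intro p
    by_cases hp : p ∈ range (shearPolar t b)
    · obtain ⟨w, rfl⟩ := hp
      simp only [d, pushFun_apply h]
      obtain ⟨c0, c1⟩ := hχ01 (w.1^2 + w.2^2)
      have hJ := shearJ_pos h w
      simp only [u', u, χ]
      rcases eq_or_lt_of_le c0 with e | e
      · rw [← e]; simpa using ht
      · have := div_pos e hJ
        nlinarith [mul_le_of_le_one_right ht.le c1]
    · rw [show d p = 0 from pushFun_of_notMem _ hp]; simpa using ht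
  have hdle : ∀ p, d p ≤ pushFun t b u p := by
    intro p
    by_cases hp : p ∈ range (shearPolar t b)
    · obtain ⟨w, rfl⟩ := hp
      simp only [d, pushFun_apply h]
      have := mul_nonneg ht.le (hχ01 (w.1^2 + w.2^2)).1
      simp only [u', χ]; linarith
    · rw [show d p = 0 from pushFun_of_notMem _ hp, pushFun_of_notMem _ hp]
  obtain ⟨K, hKs, hKi, hKa, hK2, hK1⟩ := exists_rearrange (c := t) hd hd0 hpos
  refine ⟨K ∘ shearPolar t b, hKs.comp (contDiff_shearPolar h),
    hKi.comp (shearPolar_injective h), fun w hw => ?_⟩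
  obtain ⟨hF, hφ0, hφ1⟩ := shearPolar_mem h w
  set F := (shearPolar t b w).1 with hFdef
  have hin : w.1^2 + w.2^2 ≤ a/π := by
    rw [le_div_iff₀ Real.pi_pos]; linarith
  have hχw : χ w = 1 := hχ1 _ (by rw [abs_of_nonneg (by positivity)]; exact hin)
  have hcont : Continuous fun p : ℝ × ℝ => t + pushFun t b u p :=
    continuous_const.add hdD.continuous
  have hint : ∫ y in (0:ℝ)..F, ∫ s in (0:ℝ)..1, (t + d (y, s))
      ≤ t * F + (F + 4 * ρ * t) := by
    have hm := transported_mass_le h (ε := t) (fun y hy => hb0 y hy) ht.le (by linarith)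
      hχ (fun v => hχ01 _) hχout hF.le
    calc ∫ y in (0:ℝ)..F, ∫ s in (0:ℝ)..1, (t + d (y, s))
        ≤ ∫ y in (0:ℝ)..F, ∫ s in (0:ℝ)..1, (t + pushFun t b u (y, s)) := by
          refine intervalIntegral.integral_mono_on hF.le ?_ ?_ fun y _ =>
            intervalIntegral.integral_mono_on zero_le_one ?_ ?_ fun s _ => ?_
          · exact (intervalIntegral.continuous_parametric_intervalIntegral_of_continuous'
              (continuous_const.add hd.continuous) 0 1).intervalIntegrable _ _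
          · exact (intervalIntegral.continuous_parametric_intervalIntegral_of_continuous'
              hcont 0 1).intervalIntegrable _ _
          · exact (continuous_const.add (hd.continuous.comp (by fun_prop))).intervalIntegrable _ _
          · exact (hcont.comp (by fun_prop : Continuous fun s => (y, s))).intervalIntegrable _ _
          · linarith [hdle (y, s)]
      _ = ∫ p in Icc 0 F ×ˢ Icc (0:ℝ) 1, (t + pushFun t b u p) := by
          rw [Measure.volume_eq_prod, setIntegral_prod _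
            (hcont.continuousOn.integrableOn_compact (isCompact_Icc.prod isCompact_Icc)),
            intervalIntegral.integral_of_le hF.le, ← integral_Icc_eq_integral_Ioc]
          refine setIntegral_congr_fun measurableSet_Icc fun y _ => ?_
          rw [intervalIntegral.integral_of_le zero_le_one, ← integral_Icc_eq_integral_Ioc]
      _ ≤ t * F + (F + 4 * ρ * t) := by
          rw [integral_add (by exact continuous_const.continuousOn.integrableOn_compact (isCompact_Icc.prod isCompact_Icc))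
            (hdD.continuous.continuousOn.integrableOn_compact (isCompact_Icc.prod isCompact_Icc)),
            setIntegral_const]
          refine add_le_add ?_ hm
          rw [Measure.real, Measure.volume_eq_prod, Measure.prod_prod, Real.volume_Icc, Real.volume_Icc]
          simp [hF.le, mul_comm]
  have hFle : F ≤ π * (w.1^2 + w.2^2) + t * (π * (2 * ρ + 1)) := by
    have hx : |w.1| ≤ ρ := abs_le_of_sq_le_sq (by nlinarith [sq_nonneg w.2]) (by linarith)
    have := pow_le_pow_left₀ (abs_nonneg _) (abs_shearX_le h w) 2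
    rw [sq_abs, add_sq, sq_abs] at this
    have e : F = π * ((shearX t b w)^2 + w.2^2) := rfl
    rw [e]
    nlinarith [Real.pi_pos, mul_le_mul_of_nonneg_left hx (mul_pos Real.pi_pos ht).le,
      mul_le_mul_of_nonneg_left ht1 (mul_pos Real.pi_pos ht).le]
  have hA : (K (shearPolar t b w)).1 = t + ∫ y in (0:ℝ)..F, ∫ s in (0:ℝ)..1, (t + d (y, s)) :=
    hK1 _
  refine ⟨?_, ?_, (hK2 _ hφ0 hφ1).1, (hK2 _ hφ0 hφ1).2, ?_⟩
  · show 0 < (K (shearPolar t b w)).1
    rw [hA]
    have : 0 ≤ ∫ y in (0:ℝ)..F, ∫ s in (0:ℝ)..1, (t + d (y, s)) :=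
      intervalIntegral.integral_nonneg hF.le fun y _ =>
        intervalIntegral.integral_nonneg zero_le_one fun s _ => (hpos _).le
    linarith
  · show (K (shearPolar t b w)).1 ≤ _
    rw [hA]
    have hP : 0 ≤ π * (2 * ρ + 1) := by positivity
    nlinarith [mul_nonneg (mul_nonneg ht.le hP) (sub_nonneg.2 ht1),
      mul_le_mul_of_nonneg_left hFle ht.le, mul_le_mul_of_nonneg_left hw.le ht.le]
  · intro x y
    rw [fderiv_comp w (hKs.differentiable (by simp) _)
      ((contDiff_shearPolar h).differentiable (by simp) w)]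
    simp only [ContinuousLinearMap.coe_comp, Function.comp_apply]
    rw [hKa, area2_fderiv_shearPolar h, show d (shearPolar t b w) = u' w from pushFun_apply h _ w]
    simp only [u', u, hχw]
    have := (shearJ_pos h w).ne'
    field_simp
    ring

end

end Vale.Agent.P209
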