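import Vale.Agent.P209.Defs
import Vale.Agent.P209.Transport
import Vale.Agent.P209.Lattice

/-!
Symplectic embeddings of a ball over an integral affine image of a simplex.
-/

open Matrix Set
open scoped Real ContDiff

namespace Vale.Agent.P209

noncomputable section

variable {n : ℕ}

def toPair : ℂ →L[ℝ] ℝ × ℝ := (Complex.equivRealProdCLM : ℂ →L[ℝ] ℝ × ℝ)

def ofPair : ℝ × ℝ →L[ℝ] ℂ := (Complex.equivRealProdCLM.symm : ℝ × ℝ →L[ℝ] ℂ)

lemma omega0_eq (u v : Fin n → ℂ) : omega0 u v = ∑ j, area2 (toPair (u j)) (toPair (v j)) := rfl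

lemma norm_sq_eq (w : ℂ) : ‖w‖^2 = (toPair w).1^2 + (toPair w).2^2 := by
  rw [Complex.sq_norm, Complex.normSq_apply]
  simp [toPair, sq]

lemma toPair_ofPair (p : ℝ × ℝ) : toPair (ofPair p) = p :=
  Complex.equivRealProdCLM.apply_symm_apply p

/-- The cotangent lift of `μ ↦ A μ` in action and angle coordinates. -/
def liftLin (A : Matrix (Fin n) (Fin n) ℤ) : (Fin n → ℝ × ℝ) →L[ℝ] (Fin n → ℝ × ℝ) :=
  LinearMap.toContinuousLinearMap
    { toFun := fun q j => ((realMat A *ᵥ fun i => (q i).1) j, (realMat A⁻¹ᵀ *ᵥ fun i => (q i).2) j)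
      map_add' := fun p q => by
        funext j
        simp [mulVec, dotProduct, mul_add, Finset.sum_add_distrib]
      map_smul' := fun a q => by
        funext j
        simp [mulVec, dotProduct, Finset.mul_sum, mul_left_comm] }

lemma liftLin_apply (A : Matrix (Fin n) (Fin n) ℤ) (q : Fin n → ℝ × ℝ) (j : Fin n) :
    liftLin A q j =
      ((realMat A *ᵥ fun i => (q i).1) j, (realMat A⁻¹ᵀ *ᵥ fun i => (q i).2) j) := rfl

lemma realMat_transpose (A : Matrix (Fin n) (Fin n) ℤ) : realMat Aᵀ = (realMat A)ᵀ := rfl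

lemma realMat_pairing {A : Matrix (Fin n) (Fin n) ℤ} (hA : IsUnit A.det) (a b : Fin n → ℝ) :
    (realMat A *ᵥ a) ⬝ᵥ (realMat A⁻¹ᵀ *ᵥ b) = a ⬝ᵥ b := by
  rw [dotProduct_mulVec, realMat_transpose, vecMul_transpose, mulVec_mulVec, ← realMat_mul,
    nonsing_inv_mul _ hA, realMat_one, one_mulVec]

lemma liftLin_area {A : Matrix (Fin n) (Fin n) ℤ} (hA : IsUnit A.det)
    (p q : Fin n → ℝ × ℝ) :
    ∑ j, area2 (liftLin A p j) (liftLin A q j) = ∑ j, area2 (p j) (q j) := by
  have h1 := realMat_pairing hA (fun i => (p i).1) (fun i => (q i).2)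
  have h2 := realMat_pairing hA (fun i => (q i).1) (fun i => (p i).2)
  simp only [dotProduct] at h1 h2
  simp only [area2, liftLin_apply, Finset.sum_sub_distrib]
  rw [h1]
  congr 1
  calc ∑ j, (realMat A⁻¹ᵀ *ᵥ fun i => (p i).2) j * (realMat A *ᵥ fun i => (q i).1) j
      = ∑ j, (realMat A *ᵥ fun i => (q i).1) j * (realMat A⁻¹ᵀ *ᵥ fun i => (p i).2) j :=
        Finset.sum_congr rfl fun _ _ => mul_comm _ _
    _ = ∑ j, (q j).1 * (p j).2 := h2
    _ = _ := Finset.sum_congr rfl fun _ _ => mul_comm _ _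

lemma polarG_eq_imp {p q : ℝ × ℝ} (hp : 0 < p.1) (hq : 0 < q.1) (e : polarG p = polarG q) :
    p.1 = q.1 ∧ ∃ k : ℤ, p.2 - q.2 = k := by
  simp only [polarG, Prod.mk.injEq] at e
  obtain ⟨e1, e2⟩ := e
  have s1 := Real.sin_sq_add_cos_sq (2*π*p.2)
  have s2 := Real.sin_sq_add_cos_sq (2*π*q.2)
  have hp' := Real.sq_sqrt (div_pos hp Real.pi_pos).le
  have hq' := Real.sq_sqrt (div_pos hq Real.pi_pos).le
  have h : p.1/π = q.1/π := by
    rw [← hp', ← hq']
    calc √(p.1/π)^2 = (√(p.1/π) * Real.cos (2*π*p.2))^2 + (√(p.1/π) * Real.sin (2*π*p.2))^2 := by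
          linear_combination (-√(p.1/π)^2) * s1
      _ = (√(q.1/π) * Real.cos (2*π*q.2))^2 + (√(q.1/π) * Real.sin (2*π*q.2))^2 := by rw [e1, e2]
      _ = _ := by linear_combination (√(q.1/π)^2) * s2
  refine ⟨by simpa [div_left_inj' Real.pi_ne_zero] using h, ?_⟩
  have hne : √(q.1/π) ≠ 0 := (Real.sqrt_pos.2 (div_pos hq Real.pi_pos)).ne'
  rw [h] at e1 e2
  have := Real.Angle.cos_sin_inj (mul_left_cancel₀ hne e1) (mul_left_cancel₀ hne e2)
  obtain ⟨k, hk⟩ := Real.Angle.angle_eq_iff_two_pi_dvd_sub.1 this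
  refine ⟨k, mul_left_cancel₀ (by positivity : (2*π) ≠ 0) ?_⟩
  linear_combination hk

lemma liftLin_angle_inj {A : Matrix (Fin n) (Fin n) ℤ} (hA : IsUnit A.det) {a b : Fin n → ℝ}
    (ha : ∀ i, 0 < a i ∧ a i < 1) (hb : ∀ i, 0 < b i ∧ b i < 1) {k : Fin n → ℤ}
    (h : ∀ j, (realMat A⁻¹ᵀ *ᵥ a) j - (realMat A⁻¹ᵀ *ᵥ b) j = (k j : ℝ)) : a = b := by
  have h1 : realMat A⁻¹ᵀ *ᵥ (a - b) = fun j => (k j : ℝ) := by
    funext j; simp [mulVec_sub, h j]
  have h2 : a - b = realMat Aᵀ *ᵥ fun j => (k j : ℝ) := by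
    rw [← h1, mulVec_mulVec, ← realMat_mul, ← transpose_mul, nonsing_inv_mul _ hA, transpose_one,
      realMat_one, one_mulVec]
  funext i
  have h3 : a i - b i = (((Aᵀ *ᵥ k) i : ℤ) : ℝ) := by
    have := congrFun h2 i
    simpa [realMat, mulVec, dotProduct] using this
  have l1 : (((Aᵀ *ᵥ k) i : ℤ) : ℝ) < 1 := by linarith [(ha i).2, (hb i).1]
  have l2 : (-1:ℝ) < (((Aᵀ *ᵥ k) i : ℤ) : ℝ) := by linarith [(ha i).1, (hb i).2]
  norm_cast at l1 l2
  have : (Aᵀ *ᵥ k) i = 0 := by omega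
  rw [this, Int.cast_zero] at h3
  linarith

/-- A closed ball of capacity `r < s` embeds symplectically over the open simplex
`A (s Δ) + c`, for unimodular `A`, provided this simplex lies in the open orthant. -/
theorem exists_simplex_embedding {A : Matrix (Fin n) (Fin n) ℤ} (hA : IsUnit A.det)
    (c : Fin n → ℝ) {r s : ℝ} (hr : 0 < r) (hrs : r < s)
    (horth : ∀ μ : Fin n → ℝ, (∀ i, 0 < μ i) → ∑ i, μ i < s → ∀ j, 0 < (realMat A *ᵥ μ + c) j) :
    ∃ (f : (Fin n → ℂ) → (Fin n → ℂ)) (U : Set (Fin n → ℂ)),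
      closedBallCap n r ⊆ U ∧ IsSymplecticEmbeddingOn f U ∧
      ∀ z ∈ U, ∃ μ : Fin n → ℝ, (∀ i, 0 < μ i) ∧ ∑ i, μ i < s ∧
        ∀ j, π * ‖f z j‖^2 = (realMat A *ᵥ μ + c) j := by
  obtain ⟨ψ, hψs, hψi, hψ⟩ := exists_disc_chart (a := (r+s)/2) (δ := (s - r)/(2*(n+1)))
    (by linarith) (div_pos (by linarith) (by positivity))
  set U : Set (Fin n → ℂ) := {z | π * ∑ j, ‖z j‖^2 < (r+s)/2} with hU
  have hUo : IsOpen U := isOpen_lt (by fun_prop) continuous_const
  have hw : ∀ z ∈ U, ∀ j, π * ((toPair (z j)).1^2 + (toPair (z j)).2^2) < (r+s)/2 := by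
    intro z hz j
    rw [← norm_sq_eq]
    refine lt_of_le_of_lt (mul_le_mul_of_nonneg_left ?_ Real.pi_pos.le) hz
    exact Finset.single_le_sum (f := fun i => ‖z i‖^2) (fun i _ => sq_nonneg _) (Finset.mem_univ j)
  let M : (Fin n → ℂ) → (Fin n → ℝ × ℝ) := fun z j => ψ (toPair (z j))
  let Q : (Fin n → ℂ) → (Fin n → ℝ × ℝ) := fun z => liftLin A (M z) + fun j => (c j, 0)
  let f : (Fin n → ℂ) → (Fin n → ℂ) := fun z j => ofPair (polarG (Q z j))
  let μ : (Fin n → ℂ) → Fin n → ℝ := fun z i => (M z i).1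
  have hμ0 : ∀ z ∈ U, ∀ i, 0 < μ z i := fun z hz i => (hψ _ (hw z hz i)).1
  have hμs : ∀ z ∈ U, ∑ i, μ z i < s := by
    intro z hz
    calc ∑ i, μ z i ≤ ∑ i, (π * ‖z i‖^2 + (s - r)/(2*(n+1))) := Finset.sum_le_sum fun i _ => by
          rw [norm_sq_eq]; exact (hψ _ (hw z hz i)).2.1
      _ = π * ∑ i, ‖z i‖^2 + n * ((s - r)/(2*(n+1))) := by
          simp [Finset.sum_add_distrib, Finset.mul_sum]
      _ < s := by
          have h2 : (n:ℝ) * ((s - r)/(2*(n+1))) ≤ (s - r)/2 := by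
            rw [mul_div_assoc', div_le_div_iff₀ (by positivity) two_pos]
            nlinarith
          have h3 : π * ∑ i, ‖z i‖^2 < (r+s)/2 := hz
          linarith
  have hQ1 : ∀ z j, (Q z j).1 = (realMat A *ᵥ μ z + c) j := fun z j => by
    simp [Q, liftLin_apply, μ]
  have hpos : ∀ z ∈ U, ∀ j, 0 < (Q z j).1 := fun z hz j => by
    rw [hQ1]; exact horth _ (hμ0 z hz) (hμs z hz) j
  have hMs : ContDiff ℝ ∞ M :=
    contDiff_pi.2 fun j => hψs.comp (toPair.contDiff.comp (contDiff_apply ℝ ℂ j))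
  have hQs : ContDiff ℝ ∞ Q := ((liftLin A).contDiff.comp hMs).add contDiff_const
  refine ⟨f, U, fun z hz => ?_, ⟨hUo, ?_, ?_, ?_⟩, ?_⟩
  · have : π * ∑ j, ‖z j‖^2 ≤ r := hz
    show π * ∑ j, ‖z j‖^2 < (r+s)/2
    linarith
  · intro z hz
    refine (contDiffAt_pi.2 fun j => ?_).contDiffWithinAt
    have h1 : ContDiffAt ℝ ∞ (fun x => Q x j) z := ((contDiff_apply ℝ (ℝ × ℝ) j).comp hQs).contDiffAt
    have h2 : ContDiffAt ℝ ∞ (fun x => polarG (Q x j)) z :=
      (contDiffAt_polarG (hpos z hz j)).comp (g := polarG) z h1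
    exact ofPair.contDiff.contDiffAt.comp z h2
  · intro z hz z' hz' e
    have hj : ∀ j, (Q z j).1 = (Q z' j).1 ∧ ∃ k : ℤ, (Q z j).2 - (Q z' j).2 = k := fun j => by
      refine polarG_eq_imp (hpos z hz j) (hpos z' hz' j) ?_
      have := congrArg toPair (congrFun e j)
      simpa [f, toPair_ofPair] using this
    choose h1 k hk using hj
    have hmu : μ z = μ z' := by
      have hu : IsUnit (realMat A) := by
        refine ⟨⟨realMat A, realMat A⁻¹, ?_, ?_⟩, rfl⟩
        · rw [← realMat_mul, mul_nonsing_inv _ hA, realMat_one]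
        · rw [← realMat_mul, nonsing_inv_mul _ hA, realMat_one]
      refine mulVec_injective_of_isUnit hu (funext fun j => ?_)
      have := h1 j
      rw [hQ1, hQ1, Pi.add_apply, Pi.add_apply] at this
      linarith
    have hth : (fun i => (M z i).2) = fun i => (M z' i).2 := by
      refine liftLin_angle_inj hA (fun i => ⟨(hψ _ (hw z hz i)).2.2.1, (hψ _ (hw z hz i)).2.2.2.1⟩)
        (fun i => ⟨(hψ _ (hw z' hz' i)).2.2.1, (hψ _ (hw z' hz' i)).2.2.2.1⟩) (k := k) fun j => ?_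
      simpa [Q, liftLin_apply] using hk j
    funext j
    apply Complex.equivRealProdCLM.injective
    exact hψi (Prod.ext (congrFun hmu j) (congrFun hth j))
  · intro z hz u v
    set L : Fin n → ((Fin n → ℂ) →L[ℝ] ℝ × ℝ) := fun i =>
      (fderiv ℝ ψ (toPair (z i))).comp (toPair.comp (ContinuousLinearMap.proj i))
    have hM : HasFDerivAt M (ContinuousLinearMap.pi L) z := hasFDerivAt_pi.2 fun i =>
      ((hψs.differentiable (by simp)) _).hasFDerivAt.comp z
        (toPair.hasFDerivAt.comp z (hasFDerivAt_apply (𝕜 := ℝ) i z))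
    have hQ : HasFDerivAt Q ((liftLin A).comp (ContinuousLinearMap.pi L)) z :=
      ((liftLin A).hasFDerivAt.comp z hM).add_const _
    have hf : HasFDerivAt f (ContinuousLinearMap.pi fun j => ofPair.comp
        ((fderiv ℝ polarG (Q z j)).comp ((ContinuousLinearMap.proj j).comp
          ((liftLin A).comp (ContinuousLinearMap.pi L))))) z := hasFDerivAt_pi.2 fun j =>
      by
        have h1 : HasFDerivAt (fun x => Q x j) ((ContinuousLinearMap.proj j).comp
            ((liftLin A).comp (ContinuousLinearMap.pi L))) z :=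
          (hasFDerivAt_apply (𝕜 := ℝ) j (Q z)).comp z hQ
        have h0 : HasFDerivAt polarG (fderiv ℝ polarG (Q z j)) (Q z j) :=
          ((contDiffAt_polarG (hpos z hz j)).differentiableAt (by simp)).hasFDerivAt
        have h2 : HasFDerivAt (fun x => polarG (Q x j)) ((fderiv ℝ polarG (Q z j)).comp
            ((ContinuousLinearMap.proj j).comp ((liftLin A).comp (ContinuousLinearMap.pi L)))) z :=
          h0.comp (g := polarG) z h1
        exact ofPair.hasFDerivAt.comp z h2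
    rw [hf.fderiv, omega0_eq, omega0_eq]
    simp only [ContinuousLinearMap.pi_apply, ContinuousLinearMap.coe_comp, Function.comp_apply,
      ContinuousLinearMap.proj_apply, toPair_ofPair, area2_fderiv_polarG (hpos z hz _)]
    rw [liftLin_area hA]
    refine Finset.sum_congr rfl fun i _ => ?_
    simp only [ContinuousLinearMap.pi_apply, L, ContinuousLinearMap.coe_comp, Function.comp_apply,
      ContinuousLinearMap.proj_apply]
    exact (hψ _ (hw z hz i)).2.2.2.2 _ _
  · intro z hz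
    refine ⟨μ z, hμ0 z hz, hμs z hz, fun j => ?_⟩
    have hp := hpos z hz j
    rw [← hQ1, norm_sq_eq, toPair_ofPair]
    simp only [polarG]
    have hs := Real.sq_sqrt (div_pos hp Real.pi_pos).le
    have hc := Real.sin_sq_add_cos_sq (2*π*(Q z j).2)
    have : π * ((Q z j).1/π) = (Q z j).1 := by field_simp [Real.pi_ne_zero]
    linear_combination (π * √((Q z j).1/π)^2) * hc + π * hs + this

end

end Vale.Agent.P209
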