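import Mathlib

/-!
Symplectic ball packings in standard complex space.
-/

open scoped Real ContDiff

namespace Vale.Agent.P209

/-- The standard symplectic form `∑ dx_j ∧ dy_j`. -/
noncomputable def omega0 {n : ℕ} (u v : Fin n → ℂ) : ℝ :=
  ∑ j, ((u j).re * (v j).im - (u j).im * (v j).re)

/-- The closed ball of capacity `R`. -/
def closedBallCap (n : ℕ) (R : ℝ) : Set (Fin n → ℂ) := {z | π * ∑ j, ‖z j‖ ^ 2 ≤ R}

/-- The open ball of capacity `R`. -/
def openBallCap (n : ℕ) (R : ℝ) : Set (Fin n → ℂ) := {z | π * ∑ j, ‖z j‖ ^ 2 < R}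

/-- `f` is a symplectic embedding of the open set `U`: smooth, injective, pulling back `omega0` to
itself (so its differential is everywhere bijective and `f` is a diffeomorphism onto an open set). -/
def IsSymplecticEmbeddingOn {n : ℕ} (f : (Fin n → ℂ) → (Fin n → ℂ)) (U : Set (Fin n → ℂ)) :
    Prop :=
  IsOpen U ∧ ContDiffOn ℝ ∞ f U ∧ Set.InjOn f U ∧
    ∀ z ∈ U, ∀ u v, omega0 (fderiv ℝ f z u) (fderiv ℝ f z v) = omega0 u v

/-- The disjoint union of the closed balls of capacities `r i` embeds symplectically into the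
open ball of capacity `R`. -/
def HasBallPacking (n k : ℕ) (R : ℝ) (r : Fin k → ℝ) : Prop :=
  ∃ (f : Fin k → (Fin n → ℂ) → (Fin n → ℂ)) (U : Fin k → Set (Fin n → ℂ)),
    (∀ i, closedBallCap n (r i) ⊆ U i ∧ IsSymplecticEmbeddingOn (f i) (U i) ∧
      f i '' closedBallCap n (r i) ⊆ openBallCap n R) ∧
    ∀ i j, i ≠ j → Disjoint (f i '' closedBallCap n (r i)) (f j '' closedBallCap n (r j))

end Vale.Agent.P209
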