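import Vale.Agent.P209.Cells

/-!
Dyadic trees of cells and greedy assignment of levels to disjoint nodes.
-/

open Set

namespace Vale.Agent.P209

noncomputable section

variable {n : ℕ} {ι κ : Type*}

/-- The node of address `a` at depth `j`. -/
def node (F : ι → Cell n) : (j : ℕ) → ι × (Fin j → (Fin n → Fin 2)) → Cell n
  | 0, a => F a.1
  | j + 1, a => (node F j (a.1, Fin.init a.2)).sub (a.2 (Fin.last j)) two_pos

lemma node_size (F : ι → Cell n) {h : ℝ} (hF : ∀ a, (F a).size = h) :
    ∀ (j : ℕ) (a : ι × (Fin j → (Fin n → Fin 2))), (node F j a).size = h / 2 ^ j := by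
  intro j
  induction j with
  | zero => intro a; simp [node, hF]
  | succ j ih =>
    intro a
    rw [node, Cell.sub_size, ih, pow_succ, div_div]
    norm_num

lemma node_subset (F : ι → Cell n) {i j : ℕ} (hij : i ≤ j) :
    ∀ a : ι × (Fin j → (Fin n → Fin 2)),
      (node F j a).carrier ⊆ (node F i (a.1, a.2 ∘ Fin.castLE hij)).carrier := by
  induction j, hij using Nat.le_induction with
  | base => intro a; exact Subset.rfl
  | succ j h ih =>
    intro a
    exact (Cell.carrier_sub_subset _ _ two_pos).trans (ih (a.1, Fin.init a.2))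

lemma node_root (F : ι → Cell n) {j : ℕ} (a : ι × (Fin j → (Fin n → Fin 2))) :
    (node F j a).carrier ⊆ (F a.1).carrier :=
  node_subset F (Nat.zero_le j) a

lemma node_disjoint (F : ι → Cell n) (hd : ∀ a b, a ≠ b → Disjoint (F a).carrier (F b).carrier) :
    ∀ (j : ℕ) (a b : ι × (Fin j → (Fin n → Fin 2))), a ≠ b →
      Disjoint (node F j a).carrier (node F j b).carrier := by
  intro j
  induction j with
  | zero =>
    intro a b hab
    exact hd _ _ fun e => hab (Prod.ext e (funext fun x => x.elim0))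
  | succ j ih =>
    intro a b hab
    by_cases e : (a.1, Fin.init a.2) = (b.1, Fin.init b.2)
    · have h : a.2 (Fin.last j) ≠ b.2 (Fin.last j) := by
        intro h
        rw [Prod.mk.injEq] at e
        refine hab (Prod.ext e.1 ?_)
        rw [← Fin.snoc_init_self a.2, ← Fin.snoc_init_self b.2, e.2, h]
      rw [node, node, e]
      exact Cell.disjoint_sub _ two_pos h
    · exact (ih _ _ e).mono (Cell.carrier_sub_subset _ _ two_pos)
        (Cell.carrier_sub_subset _ _ two_pos)

lemma card_trunc_le [Fintype ι] [DecidableEq ι] {i j : ℕ} (hij : i ≤ j)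
    (v : ι × (Fin i → (Fin n → Fin 2))) :
    (Finset.univ.filter fun a : ι × (Fin j → (Fin n → Fin 2)) =>
      (a.1, a.2 ∘ Fin.castLE hij) = v).card ≤ (2 ^ n) ^ (j - i) := by
  have h := Finset.card_le_card_of_injOn
    (s := Finset.univ.filter fun a : ι × (Fin j → (Fin n → Fin 2)) =>
      (a.1, a.2 ∘ Fin.castLE hij) = v)
    (t := (Finset.univ : Finset (Fin (j - i) → (Fin n → Fin 2))))
    (fun a t => a.2 ⟨i + t.val, by omega⟩) (fun _ _ => Finset.mem_coe.2 (Finset.mem_univ _)) ?_
  · simpa using h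
  · intro a ha b hb e
    simp only [Finset.coe_filter, Finset.mem_univ, true_and, Set.mem_ofPred_eq] at ha hb
    obtain ⟨e1, e2⟩ := Prod.ext_iff.1 (ha.trans hb.symm)
    refine Prod.ext e1 (funext fun x => ?_)
    by_cases hx : x.val < i
    · exact congrFun e2 ⟨x.val, hx⟩
    · have := congrFun e ⟨x.val - i, by omega⟩
      simp only at this
      convert this using 2 <;> exact Fin.ext (by simp only; omega)

lemma exists_assign_aux [Fintype ι] (F : ι → Cell n)
    (hd : ∀ a b, a ≠ b → Disjoint (F a).carrier (F b).carrier) (lev : κ → ℕ) (s : Finset κ)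
    (hsum : ∑ i ∈ s, (((2:ℝ) ^ n)⁻¹) ^ lev i ≤ Fintype.card ι) :
    ∃ D : κ → Cell n, (∀ i ∈ s, ∃ a, D i = node F (lev i) a) ∧
      ∀ i ∈ s, ∀ j ∈ s, i ≠ j → Disjoint (D i).carrier (D j).carrier := by
  classical
  induction s using Finset.induction_on_max_value lev with
  | empty => exact ⟨fun _ => Cell.std 1 one_pos 0, by simp, by simp⟩
  | insert b s hbs hmax ih =>
    rw [Finset.sum_insert hbs] at hsum
    have hp : (0:ℝ) < (((2:ℝ) ^ n)⁻¹) ^ lev b := by positivity
    obtain ⟨D, hD, hdD⟩ := ih (by linarith)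
    choose v hv using hD
    let bad : Finset (ι × (Fin (lev b) → (Fin n → Fin 2))) := s.attach.biUnion fun i =>
      Finset.univ.filter fun a => (a.1, a.2 ∘ Fin.castLE (hmax i.1 i.2)) = v i.1 i.2
    have hcard : (bad.card : ℝ) < Fintype.card (ι × (Fin (lev b) → (Fin n → Fin 2))) := by
      calc (bad.card : ℝ) ≤ ((∑ i ∈ s.attach, (2 ^ n) ^ (lev b - lev i.1) : ℕ) : ℝ) :=
            Nat.cast_le.2 (Finset.card_biUnion_le.trans
              (Finset.sum_le_sum fun i _ => card_trunc_le _ _))
        _ = (∑ i ∈ s, (((2:ℝ) ^ n)⁻¹) ^ lev i) * ((2:ℝ) ^ n) ^ lev b := by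
            rw [Finset.sum_attach s (fun i => (2 ^ n) ^ (lev b - lev i)), Finset.sum_mul,
              Nat.cast_sum]
            refine Finset.sum_congr rfl fun i hi => ?_
            push_cast
            rw [pow_sub₀ _ (by positivity) (hmax i hi), inv_pow, mul_comm]
        _ < (Fintype.card ι : ℝ) * ((2:ℝ) ^ n) ^ lev b :=
            mul_lt_mul_of_pos_right (by linarith) (by positivity)
        _ = _ := by simp
    obtain ⟨a, -, ha⟩ := Finset.exists_mem_notMem_of_card_lt_card (t := Finset.univ) (s := bad)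
      (by rw [Finset.card_univ]; exact_mod_cast hcard)
    have key : ∀ i, (hi : i ∈ s) → Disjoint (node F (lev b) a).carrier (D i).carrier := by
      intro i hi
      rw [hv i hi]
      refine (node_disjoint F hd _ _ _ ?_).mono_left (node_subset F (hmax i hi) a)
      intro e
      exact ha (Finset.mem_biUnion.2 ⟨⟨i, hi⟩, Finset.mem_attach _ _, by simp [e]⟩)
    have hne : ∀ i ∈ s, i ≠ b := fun i hi e => hbs (e ▸ hi)
    refine ⟨Function.update D b (node F (lev b) a), fun i hi => ?_, fun i hi j hj hij => ?_⟩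
    · rcases Finset.mem_insert.1 hi with rfl | hi
      · exact ⟨a, Function.update_self ..⟩
      · rw [Function.update_of_ne (hne i hi)]; exact ⟨_, hv i hi⟩
    · rcases Finset.mem_insert.1 hi with e | hi' <;> rcases Finset.mem_insert.1 hj with e' | hj'
      · exact absurd (e.trans e'.symm) hij
      · rw [e, Function.update_self, Function.update_of_ne (hne j hj')]; exact key j hj'
      · rw [e', Function.update_self, Function.update_of_ne (hne i hi')]; exact (key i hi').symm
      · rw [Function.update_of_ne (hne i hi'), Function.update_of_ne (hne j hj')]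
        exact hdD i hi' j hj' hij

/-- Disjoint dyadic cells below disjoint roots of common size `h`. -/
theorem exists_dyadic_cells [Fintype ι] [Fintype κ] (F : ι → Cell n) {h : ℝ}
    (hF : ∀ a, (F a).size = h)
    (hd : ∀ a b, a ≠ b → Disjoint (F a).carrier (F b).carrier) (lev : κ → ℕ)
    (hsum : ∑ i, (((2:ℝ) ^ n)⁻¹) ^ lev i ≤ Fintype.card ι) :
    ∃ D : κ → Cell n, (∀ i, (D i).size = h / 2 ^ lev i ∧ ∃ a, (D i).carrier ⊆ (F a).carrier) ∧
      ∀ i j, i ≠ j → Disjoint (D i).carrier (D j).carrier := by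
  obtain ⟨D, h1, h2⟩ := exists_assign_aux F hd lev Finset.univ hsum
  refine ⟨D, fun i => ?_, fun i j hij => h2 i (Finset.mem_univ i) j (Finset.mem_univ j) hij⟩
  obtain ⟨a, ha⟩ := h1 i (Finset.mem_univ i)
  rw [ha]
  exact ⟨node_size F hF _ a, a.1, node_root F a⟩

lemma exists_level {h r : ℝ} (hr : 0 < r) (hrh : r < h) :
    ∃ j : ℕ, r < h / 2 ^ j ∧ h / 2 ^ j ≤ 2 * r := by
  classical
  have hex : ∃ j : ℕ, h / r ≤ 2 ^ (j + 1) := by
    obtain ⟨j, hj⟩ := pow_unbounded_of_one_lt (h / r) (one_lt_two : (1:ℝ) < 2)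
    exact ⟨j, hj.le.trans (pow_le_pow_right₀ one_le_two (by omega))⟩
  refine ⟨Nat.find hex, ?_, ?_⟩
  · rcases Nat.eq_zero_or_pos (Nat.find hex) with e | e
    · simpa [e] using hrh
    · have := Nat.find_min hex (show Nat.find hex - 1 < Nat.find hex by omega)
      rw [not_le, show Nat.find hex - 1 + 1 = Nat.find hex by omega, lt_div_iff₀ hr] at this
      rw [lt_div_iff₀ (by positivity)]; linarith
  · have := Nat.find_spec hex
    rw [div_le_iff₀ hr, pow_succ] at this
    rw [div_le_iff₀ (by positivity)]; linarith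

end

end Vale.Agent.P209
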