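import Vale.Agent.P209.Dyadic

/-!
Placements of large cells and of free grid cells.
-/

open Matrix Set Filter Topology

namespace Vale.Agent.P209

noncomputable section

variable {N : ℕ}

/-- The root cell `R Δ`. -/
def rootCell (n : ℕ) (R : ℝ) (hR : 0 < R) : Cell n := Cell.std R hR 0

lemma carrier_rootCell (n : ℕ) {R : ℝ} (hR : 0 < R) :
    (rootCell n R hR).carrier = simplexSet n R := by
  simp [rootCell, Cell.carrier_std]

lemma exists_layer_cells {R s : ℝ} {p : ℕ} (hs : 0 < s) (hR : (p+1) * s ≤ R) :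
    ∃ G : (Fin (N+1) → Fin (p+1)) → Cell (N+1),
      (∀ g, (G g).size = s ∧ (G g).carrier ⊆ simplexSet (N+1) R) ∧
      (∀ g g', g ≠ g' → Disjoint (G g).carrier (G g').carrier) ∧
      ∀ g, (∃ l, g l = Fin.last p) → ∀ x ∈ (G g).carrier, R - s < ∑ j, x j := by
  let T : Cell (N+1) := Cell.std ((p+1) * s) (by positivity) (Pi.single 0 (R - (p+1) * s))
  have hm : 0 < p + 1 := Nat.succ_pos p
  have hsz : T.size / ((p+1 : ℕ) : ℝ) = s := by
    simp only [T, Cell.std]; push_cast; field_simp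
  have hT : T.carrier ⊆ simplexSet (N+1) R := by
    simp only [T, Cell.carrier_std]
    rintro _ ⟨μ, ⟨a, b⟩, rfl⟩
    refine ⟨fun i => add_pos_of_pos_of_nonneg (a i) ?_, ?_⟩
    · by_cases hi : i = 0
      · subst hi; simpa using hR
      · simp [Pi.single_eq_of_ne hi]
    · simp only [Pi.add_apply, Finset.sum_add_distrib, Fintype.sum_pi_single']
      linarith
  refine ⟨fun g => T.sub g hm, fun g => ⟨?_, (T.carrier_sub_subset g hm).trans hT⟩,
    fun g g' h => T.disjoint_sub hm h, fun g ⟨l, hl⟩ x hx => ?_⟩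
  · rw [Cell.sub_size]; exact hsz
  · obtain ⟨ν, ⟨a, b⟩, rfl⟩ := Cell.mem_sub hx
    rw [hsz]
    simp only [T, Cell.std, realMat_one, one_mulVec, Pi.add_apply, Pi.smul_apply, smul_eq_mul,
      Finset.sum_add_distrib, Fintype.sum_pi_single', ← Finset.mul_sum]
    have := mul_lt_mul_of_pos_left (lt_sum_cellPoint g a b l) hs
    rw [hl, Fin.val_last] at this
    linarith

/-- Balls that can be placed in disjoint cells of `R Δ`. -/
def Placeable (n k : ℕ) (R : ℝ) (r : Fin k → ℝ) : Prop :=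
  ∃ D : Fin k → Cell n, (∀ i, (D i).carrier ⊆ simplexSet n R ∧ r i < (D i).size) ∧
    ∀ i j, i ≠ j → Disjoint (D i).carrier (D j).carrier

lemma exists_bound_between {ι : Type*} [Fintype ι] (v : ι → ℝ) {a b : ℝ} (hab : a < b)
    (hv : ∀ i, v i < b) : ∃ s, a < s ∧ s < b ∧ ∀ i, v i < s := by
  have h : ∀ᶠ s in 𝓝[<] b, a < s ∧ s < b ∧ ∀ i, v i < s :=
    (eventually_nhdsWithin_of_eventually_nhds (lt_mem_nhds hab)).and
      ((eventually_mem_nhdsWithin (a := b) (s := Set.Iio b)).and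
        (eventually_all.2 fun i => eventually_nhdsWithin_of_eventually_nhds (lt_mem_nhds (hv i))))
  exact h.exists

lemma placeable_big {k p : ℕ} {R : ℝ} {r : Fin k → ℝ} (hr : ∀ i, 0 < r i)
    (hpair : ∀ i j, i ≠ j → r i + r j < R) (i₀ : Fin k) (hi₀ : r i₀ < R)
    (hbig : (p:ℝ) * R ≤ (p+1) * r i₀) (hk : k + p^(N+1) ≤ (p+1)^(N+1) + 1) :
    Placeable (N+1) k R r := by
  classical
  obtain ⟨g⟩ : Nonempty ({i : Fin k // i ≠ i₀} ↪
      {f : Fin (N+1) → Fin (p+1) // ∃ l, f l = Fin.last p}) := by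
    apply Function.Embedding.nonempty_of_card_le
    rw [card_touching, Fintype.card_subtype_compl, Fintype.card_fin, Fintype.card_subtype_eq]
    omega
  obtain ⟨s, hs, hs', hsr⟩ := exists_bound_between (fun i : {i : Fin k // i ≠ i₀} => r i.1)
    (sub_pos.2 hi₀) fun i => by linarith [hpair i.1 i₀ i.2]
  obtain ⟨G, h1, h2, h3⟩ := exists_layer_cells (N := N) (R := R) (p := p) hs
    (by nlinarith [mul_lt_mul_of_pos_left hs' (by positivity : (0:ℝ) < (p:ℝ)+1)])
  have hRs : 0 < R - s := by linarith [hr i₀]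
  let C : Cell (N+1) := rootCell (N+1) (R - s) hRs
  have hC : ∀ g : {f : Fin (N+1) → Fin (p+1) // ∃ l, f l = Fin.last p},
      Disjoint C.carrier (G g.1).carrier := fun g => Set.disjoint_left.2 fun x hx hx' => by
    rw [show C.carrier = simplexSet (N+1) (R - s) from carrier_rootCell _ hRs] at hx
    exact lt_asymm hx.2 (h3 g.1 g.2 x hx')
  refine ⟨fun i => if h : i = i₀ then C else G (g ⟨i, h⟩).1, fun i => ?_, fun i j hij => ?_⟩
  · by_cases h : i = i₀
    · subst h
      simp only [dif_pos]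
      rw [show C.carrier = simplexSet (N+1) (R - s) from carrier_rootCell _ hRs]
      exact ⟨fun x hx => ⟨hx.1, hx.2.trans (by linarith)⟩, show r i < R - s by linarith⟩
    · simp only [dif_neg h, (h1 _).1]
      exact ⟨(h1 _).2, hsr ⟨i, h⟩⟩
  · by_cases hi : i = i₀ <;> by_cases hj : j = i₀
    · exact absurd (hi.trans hj.symm) hij
    · simp only [dif_pos hi, dif_neg hj]; exact hC _
    · simp only [dif_pos hj, dif_neg hi]; exact (hC _).symm
    · simp only [dif_neg hi, dif_neg hj]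
      exact h2 _ _ fun e => hij (congrArg Subtype.val (g.injective (Subtype.val_injective e)))

lemma placeable_two_pow_or_big {n k : ℕ} (hn : 1 ≤ n) {R : ℝ} (hR : 0 < R)
    {r : Fin k → ℝ} (hr : ∀ i, 0 < r i) (hvol : ∑ i, r i ^ n < R ^ n)
    (hpair : ∀ i j, i < j → r i + r j < R)
    (hk : k ≤ 2 ^ n ∨
      ∃ (i : Fin k) (p : ℕ), (p:ℝ) * R ≤ (p+1) * r i ∧ k + p ^ n ≤ (p+1) ^ n + 1) :
    Placeable n k R r := by
  obtain ⟨N, rfl⟩ : ∃ N, n = N + 1 := ⟨n - 1, by omega⟩
  have hp : ∀ i j, i ≠ j → r i + r j < R := fun i j h => by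
    rcases lt_or_gt_of_ne h with h | h
    · exact hpair i j h
    · rw [add_comm]; exact hpair j i h
  have hlt : ∀ i, r i < R := fun i =>
    lt_of_pow_lt_pow_left₀ (N+1) hR.le (lt_of_le_of_lt
      (Finset.single_le_sum (f := fun j => r j ^ (N+1)) (fun j _ => (pow_pos (hr j) _).le)
        (Finset.mem_univ i)) hvol)
  rcases hk with hk | ⟨i, p, h1, h2⟩
  · by_cases hb : ∃ i, R / 2 ≤ r i
    · obtain ⟨i, hi⟩ := hb
      refine placeable_big (p := 1) hr hp i (hlt i) (by push_cast; linarith) ?_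
      simp only [one_pow]
      norm_num
      omega
    · simp only [not_exists, not_le] at hb
      obtain ⟨G, h1, h2, -⟩ := exists_layer_cells (N := N) (R := R) (p := 1) (half_pos hR)
        (by push_cast; linarith)
      obtain ⟨g⟩ := Function.Embedding.nonempty_of_card_le
        (α := Fin k) (β := Fin (N+1) → Fin 2) (by simpa using hk)
      exact ⟨fun i => G (g i), fun i => ⟨(h1 _).2, by rw [(h1 _).1]; exact hb i⟩,
        fun i j hij => h2 _ _ fun e => hij (g.injective e)⟩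
  · exact placeable_big hr hp i (hlt i) h1 h2

lemma abs_mulVec_le {n : ℕ} (M : Matrix (Fin n) (Fin n) ℝ) {v : Fin n → ℝ} {h : ℝ}
    (hh : 0 ≤ h) (hv : ∀ j, |v j| ≤ h) (i : Fin n) :
    |(M *ᵥ v) i| ≤ (∑ i, ∑ j, |M i j|) * h := by
  calc |(M *ᵥ v) i| ≤ ∑ j, |M i j * v j| := by
        rw [mulVec, dotProduct]; exact Finset.abs_sum_le_sum_abs _ _
    _ ≤ ∑ j, |M i j| * h := Finset.sum_le_sum fun j _ => by
        rw [abs_mul]; exact mul_le_mul_of_nonneg_left (hv j) (abs_nonneg _)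
    _ = (∑ j, |M i j|) * h := by rw [Finset.sum_mul]
    _ ≤ _ := mul_le_mul_of_nonneg_right
        (Finset.single_le_sum (f := fun i => ∑ j, |M i j|)
          (fun i _ => Finset.sum_nonneg fun j _ => abs_nonneg _) (Finset.mem_univ i)) hh

/-- Enlargement factor of a cell used for counting grid cells meeting it. -/
def meetConst {n : ℕ} (D : Cell n) : ℝ :=
  ∑ i, ∑ j, |realMat (D.A⁻¹ * (cumMat n)⁻¹) i j|

open scoped Classical in
lemma count_meeting {n : ℕ} {R : ℝ} (hR : 0 < R) {Q : ℕ} (hQ : 0 < Q) (D : Cell n) :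
    (((Finset.univ : Finset (Fin n → Fin Q)).filter fun g =>
      ¬ Disjoint ((rootCell n R hR).sub g hQ).carrier D.carrier).card : ℝ) * (R / Q) ^ n
      ≤ (D.size + 2 * n * (meetConst D * (R / Q))) ^ n := by
  set h := R / Q with hdef
  have hh : 0 < h := div_pos hR (by exact_mod_cast hQ)
  set e := meetConst D * h with he
  have he0 : 0 ≤ e := mul_nonneg (Finset.sum_nonneg fun i _ => Finset.sum_nonneg fun j _ =>
    abs_nonneg _) hh.le
  let T : Cell n := ⟨D.A, D.unit, D.c - realMat D.A *ᵥ (fun _ => e), D.size + 2 * n * e,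
    add_pos_of_pos_of_nonneg D.size_pos (by positivity)⟩
  set S := (Finset.univ : Finset (Fin n → Fin Q)).filter fun g =>
      ¬ Disjoint ((rootCell n R hR).sub g hQ).carrier D.carrier
  have := Cell.sum_pow_le S (fun g => (rootCell n R hR).sub g hQ) T
    (fun a _ b _ hab => (rootCell n R hR).disjoint_sub hQ hab) ?_
  · simpa [Cell.sub_size, rootCell, Cell.std, hdef, T, Finset.sum_const, nsmul_eq_mul] using this
  intro g hg x hx
  obtain ⟨y, hy, hyD⟩ := Set.not_disjoint_iff.1 (Finset.mem_filter.1 hg).2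
  obtain ⟨μ0, hμ0, rfl⟩ := hyD
  obtain ⟨ν, ⟨a, b⟩, ex⟩ := Cell.mem_sub hx
  obtain ⟨ν', ⟨a', b'⟩, ey⟩ := Cell.mem_sub hy
  simp only [rootCell, Cell.std, realMat_one, one_mulVec, add_zero, ← hdef] at ex ey
  have hC : ∀ j, |(realMat (cumMat n) *ᵥ (x - (realMat D.A *ᵥ μ0 + D.c))) j| ≤ h := by
    intro j
    rw [ex, ey, mulVec_sub, mulVec_smul, mulVec_smul, Pi.sub_apply, Pi.smul_apply, Pi.smul_apply,
      cum_cellPoint, cum_cellPoint, smul_eq_mul, smul_eq_mul]
    obtain ⟨u0, u1⟩ := partial_bounds a b (Tuple.sort g j)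
    obtain ⟨v0, v1⟩ := partial_bounds a' b' (Tuple.sort g j)
    rw [abs_le]
    constructor <;> nlinarith
  set μ := realMat D.A⁻¹ *ᵥ (x - D.c) with hμ
  have hd : ∀ i, |μ i - μ0 i| ≤ e := by
    intro i
    have := abs_mulVec_le (realMat (D.A⁻¹ * (cumMat n)⁻¹)) hh.le hC i
    have e1 : realMat (D.A⁻¹ * (cumMat n)⁻¹) *ᵥ
        (realMat (cumMat n) *ᵥ (x - (realMat D.A *ᵥ μ0 + D.c))) = μ - μ0 := by
      rw [mulVec_mulVec, ← realMat_mul, Matrix.mul_assoc,
        nonsing_inv_mul _ (by simp [det_cumMat]), Matrix.mul_one, hμ]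
      rw [show x - (realMat D.A *ᵥ μ0 + D.c) = (x - D.c) - realMat D.A *ᵥ μ0 by abel,
        mulVec_sub, mulVec_mulVec, ← realMat_mul, nonsing_inv_mul _ D.unit, realMat_one, one_mulVec]
    rw [e1] at this
    exact this
  refine ⟨μ + fun _ => e, ⟨fun i => ?_, ?_⟩, ?_⟩
  · have := (abs_le.1 (hd i)).1
    have := hμ0.1 i
    simp only [Pi.add_apply]; linarith
  · calc ∑ i, (μ + fun _ => e : Fin n → ℝ) i ≤ ∑ i, (μ0 i + 2 * e) := Finset.sum_le_sum fun i _ => by
          have := (abs_le.1 (hd i)).2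
          simp only [Pi.add_apply]; linarith
      _ = (∑ i, μ0 i) + 2 * n * e := by simp [Finset.sum_add_distrib]; ring
      _ < T.size := by simpa [T] using hμ0.2
  · show realMat D.A *ᵥ (μ + fun _ => e) + (D.c - realMat D.A *ᵥ fun _ => e) = x
    rw [mulVec_add, hμ, mulVec_mulVec, ← realMat_mul, mul_nonsing_inv _ D.unit, realMat_one,
      one_mulVec]
    abel

/-- Fine grid cells avoiding given cells fill the remaining volume up to `η`. -/
theorem eventually_free_cells {n k : ℕ} {R : ℝ} (hR : 0 < R) (D : Fin k → Cell n) {η : ℝ}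
    (hη : 0 < η) :
    ∀ᶠ Q : ℕ in atTop, ∀ hQ : 0 < Q, ∃ G : Finset (Fin n → Fin Q),
      R ^ n - ∑ i, (D i).size ^ n - η ≤ G.card * (R / Q) ^ n ∧
      ∀ g ∈ G, ∀ i, Disjoint ((rootCell n R hR).sub g hQ).carrier (D i).carrier := by
  classical
  have ht : Tendsto (fun Q : ℕ => ∑ i, ((D i).size + 2 * n * (meetConst (D i) * (R / Q))) ^ n)
      atTop (𝓝 (∑ i, (D i).size ^ n)) := by
    refine tendsto_finsetSum _ fun i _ => ?_
    simpa using ((((tendsto_const_div_atTop_nhds_zero_nat R).const_mul (meetConst (D i))).const_mul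
      (2 * (n:ℝ))).const_add (D i).size).pow n
  filter_upwards [ht.eventually (gt_mem_nhds (lt_add_of_pos_right _ hη))] with Q hQ' hQ
  refine ⟨Finset.univ.filter fun g =>
      ∀ i, Disjoint ((rootCell n R hR).sub g hQ).carrier (D i).carrier,
    ?_, fun g hg => (Finset.mem_filter.1 hg).2⟩
  have h1 := Finset.card_filter_add_card_filter_not (s := (Finset.univ : Finset (Fin n → Fin Q)))
    (fun g => ∀ i, Disjoint ((rootCell n R hR).sub g hQ).carrier (D i).carrier)
  have h2 : ((Finset.univ : Finset (Fin n → Fin Q)).filter fun g =>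
      ¬ ∀ i, Disjoint ((rootCell n R hR).sub g hQ).carrier (D i).carrier).card
      ≤ ∑ i, ((Finset.univ : Finset (Fin n → Fin Q)).filter fun g =>
        ¬ Disjoint ((rootCell n R hR).sub g hQ).carrier (D i).carrier).card := by
    refine le_trans (Finset.card_le_card fun g hg => ?_) Finset.card_biUnion_le
    obtain ⟨i, hi⟩ := not_forall.1 (Finset.mem_filter.1 hg).2
    exact Finset.mem_biUnion.2 ⟨i, Finset.mem_univ _, Finset.mem_filter.2 ⟨Finset.mem_univ _, hi⟩⟩
  have h2' := mul_le_mul_of_nonneg_right (Nat.cast_le (α := ℝ).2 h2)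
    (by positivity : (0:ℝ) ≤ (R / Q) ^ n)
  rw [Nat.cast_sum, Finset.sum_mul] at h2'
  have h3 := h2'.trans (Finset.sum_le_sum fun i _ => count_meeting hR hQ (D i))
  have h4 : ((Q:ℝ) ^ n) * (R / Q) ^ n = R ^ n := by
    rw [← mul_pow]; congr 1; field_simp
  rw [Finset.card_univ, Fintype.card_fun, Fintype.card_fin, Fintype.card_fin] at h1
  have h1' : (((Finset.univ : Finset (Fin n → Fin Q)).filter fun g =>
      ∀ i, Disjoint ((rootCell n R hR).sub g hQ).carrier (D i).carrier).card : ℝ)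
      + (((Finset.univ : Finset (Fin n → Fin Q)).filter fun g =>
      ¬ ∀ i, Disjoint ((rootCell n R hR).sub g hQ).carrier (D i).carrier).card : ℝ)
      = (Q:ℝ) ^ n := by exact_mod_cast h1
  rw [← h1', add_mul] at h4
  linarith

end

end Vale.Agent.P209
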