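import Mathlib

/-!
Planar step of Traynor's trick: an area preserving map of a disc into the half strip
`(0,∞) × (0,1)` whose first coordinate is at most `π r² + δ`.
-/

open MeasureTheory Set Filter Topology
open scoped Real ContDiff

namespace Vale.Agent.P209

noncomputable section

/-- Area form on `ℝ × ℝ`. -/
def area2 (a b : ℝ × ℝ) : ℝ := a.1 * b.2 - a.2 * b.1

lemma area2_det (L : ℝ × ℝ →L[ℝ] ℝ × ℝ) : L.det = area2 (L (1,0)) (L (0,1)) := by
  rw [ContinuousLinearMap.det, ← LinearMap.det_toMatrix (Module.Basis.finTwoProd ℝ),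
    Matrix.det_fin_two]
  simp [LinearMap.toMatrix_apply, area2]
  ring

lemma area2_map (L : ℝ × ℝ →L[ℝ] ℝ × ℝ) (a b : ℝ × ℝ) :
    area2 (L a) (L b) = area2 (L (1,0)) (L (0,1)) * area2 a b := by
  have h : ∀ v : ℝ × ℝ, L v = v.1 • L (1,0) + v.2 • L (0,1) := by
    intro v
    rw [← map_smul, ← map_smul, ← map_add]
    congr 1
    ext <;> simp
  rw [h a, h b]
  simp [area2]
  ring

/-- Inverse of area polar coordinates. -/
def polarG (p : ℝ × ℝ) : ℝ × ℝ :=
  (√(p.1/π) * Real.cos (2*π*p.2), √(p.1/π) * Real.sin (2*π*p.2))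

lemma contDiffAt_polarG {p : ℝ × ℝ} (h : 0 < p.1) : ContDiffAt ℝ ∞ polarG p := by
  have h2 : p.1/π ≠ 0 := (div_pos h Real.pi_pos).ne'
  have hr : ContDiffAt ℝ ∞ (fun q : ℝ × ℝ => √(q.1/π)) p :=
    (contDiffAt_fst.div_const π).sqrt h2
  have hc : ContDiffAt ℝ ∞ (fun q : ℝ × ℝ => 2*π*q.2) p := contDiffAt_const.mul contDiffAt_snd
  exact (hr.mul hc.cos).prodMk (hr.mul hc.sin)

lemma area2_fderiv_polarG {p : ℝ × ℝ} (h : 0 < p.1) (a b : ℝ × ℝ) :
    area2 (fderiv ℝ polarG p a) (fderiv ℝ polarG p b) = area2 a b := by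
  have h2 : p.1/π ≠ 0 := (div_pos h Real.pi_pos).ne'
  have hr : HasFDerivAt (fun q : ℝ × ℝ => √(q.1/π))
      ((1/(2*√(p.1/π))) • ((π⁻¹:ℝ) • ContinuousLinearMap.fst ℝ ℝ ℝ)) p := by
    have := ((hasFDerivAt_fst (p := p) (𝕜 := ℝ) (E := ℝ) (F := ℝ)).mul_const π⁻¹)
    simpa [div_eq_mul_inv] using (this.sqrt (by simpa [div_eq_mul_inv] using h2))
  have hc := (hasFDerivAt_snd (p := p) (𝕜 := ℝ) (E := ℝ) (F := ℝ)).const_mul (2*π)
  have hG : HasFDerivAt polarG _ p := (hr.mul hc.cos).prodMk (hr.mul hc.sin)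
  rw [hG.fderiv]
  have hs := Real.sin_sq_add_cos_sq (2*π*p.2)
  have hq : √(p.1/π) ≠ 0 := (Real.sqrt_pos.2 (div_pos h Real.pi_pos)).ne'
  have hp := Real.pi_ne_zero
  simp [area2]
  generalize Real.sin (2*π*p.2) = S at *
  generalize Real.cos (2*π*p.2) = C at *
  generalize √(p.1/π) = r at *
  field_simp
  linear_combination (4*π^2*r^2*(a.1*b.2 - a.2*b.1)) * hs

/-- A smooth cut-off with values in `[0,1]`, equal to `1` on `[-u,u]`, `0` outside `(-v,v)`. -/
lemma exists_cutoff {u v : ℝ} (hu : 0 < u) (huv : u < v) :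
    ∃ b : ℝ → ℝ, ContDiff ℝ ∞ b ∧ (∀ x, 0 ≤ b x ∧ b x ≤ 1) ∧ (∀ x, |x| ≤ u → b x = 1) ∧
      (∀ x, v ≤ |x| → b x = 0) := by
  let f : ContDiffBump (0:ℝ) := ⟨u, v, hu, huv⟩
  refine ⟨f, f.contDiff, fun x => ⟨f.nonneg, f.le_one⟩, fun x hx => ?_, fun x hx => ?_⟩
  · exact f.one_of_mem_closedBall (by simpa [Real.dist_eq] using hx)
  · exact f.zero_of_le_dist (by simpa [Real.dist_eq] using hx)

lemma contDiff_sqrt_sq {τ : ℝ} (hτ : 0 < τ) : ContDiff ℝ ∞ (fun x : ℝ => √(x^2 + τ^2)) := by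
  apply ContDiff.sqrt ((contDiff_id.pow 2).add contDiff_const)
  intro x
  positivity

/-- Shear coordinate moving the origin out of every bounded set. -/
def shearX (τ : ℝ) (b : ℝ → ℝ) (w : ℝ × ℝ) : ℝ :=
  w.1 - b w.2 * ((w.1 + √(w.1^2 + τ^2))/2)

def shearJ (τ : ℝ) (b : ℝ → ℝ) (w : ℝ × ℝ) : ℝ :=
  1 - b w.2 * ((1 + w.1 / √(w.1^2 + τ^2))/2)

def shear (τ : ℝ) (b : ℝ → ℝ) (w : ℝ × ℝ) : ℝ × ℝ := (shearX τ b w, w.2)

def angle01 (z : ℝ × ℝ) : ℝ :=
  (π + Complex.arg (-(Complex.equivRealProdCLM.symm z))) / (2*π)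

/-- Area polar coordinates of the sheared point. -/
def shearPolar (τ : ℝ) (b : ℝ → ℝ) (w : ℝ × ℝ) : ℝ × ℝ :=
  (π * ((shearX τ b w)^2 + w.2^2), angle01 (shear τ b w))

structure CutHyp (τ : ℝ) (b : ℝ → ℝ) : Prop where
  pos : 0 < τ
  smooth : ContDiff ℝ ∞ b
  bd : ∀ x, 0 ≤ b x ∧ b x ≤ 1
  one : b 0 = 1

variable {τ : ℝ} {b : ℝ → ℝ}

lemma abs_lt_sqrt_sq (hτ : 0 < τ) (x : ℝ) : |x| < √(x^2 + τ^2) := by
  rw [← Real.sqrt_sq_eq_abs]
  exact Real.sqrt_lt_sqrt (sq_nonneg x) (by nlinarith)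

lemma shearJ_pos (h : CutHyp τ b) (w : ℝ × ℝ) : 0 < shearJ τ b w := by
  have hs := abs_lt_sqrt_sq h.pos w.1
  have hp : 0 < √(w.1^2+τ^2) := lt_of_le_of_lt (abs_nonneg _) hs
  have h1 : w.1 / √(w.1^2+τ^2) < 1 := by
    rw [div_lt_one hp]; exact lt_of_le_of_lt (le_abs_self _) hs
  obtain ⟨b0, b1⟩ := h.bd w.2
  unfold shearJ
  generalize w.1 / √(w.1^2+τ^2) = q at *
  rcases eq_or_lt_of_le b0 with e | e
  · rw [← e]; norm_num
  · nlinarith [mul_lt_mul_of_pos_left h1 e]

lemma hasDerivAt_shearX (h : CutHyp τ b) (w : ℝ × ℝ) :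
    HasDerivAt (fun x => shearX τ b (x, w.2)) (shearJ τ b w) w.1 := by
  have hp : w.1^2 + τ^2 ≠ 0 := by have := h.pos; positivity
  have h1 := ((hasDerivAt_pow 2 w.1).add_const (τ^2)).sqrt hp
  have h2 : HasDerivAt (fun x => shearX τ b (x, w.2)) _ w.1 :=
    (hasDerivAt_id w.1).sub (((((hasDerivAt_id w.1).add h1).div_const 2)).const_mul (b w.2))
  convert h2 using 1
  simp [shearJ]
  left
  field_simp

lemma contDiff_shear (h : CutHyp τ b) : ContDiff ℝ ∞ (shear τ b) := by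
  refine ContDiff.prodMk ?_ contDiff_snd
  exact contDiff_fst.sub ((h.smooth.comp contDiff_snd).mul
    ((contDiff_fst.add ((contDiff_sqrt_sq h.pos).comp contDiff_fst)).div_const 2))

lemma area2_fderiv_shear (h : CutHyp τ b) (w a c : ℝ × ℝ) :
    area2 (fderiv ℝ (shear τ b) w a) (fderiv ℝ (shear τ b) w c) = shearJ τ b w * area2 a c := by
  have hd := ((contDiff_shear h).differentiable (by simp) w).hasFDerivAt
  have hy : ∀ v, (fderiv ℝ (shear τ b) w v).2 = v.2 := by
    intro v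
    have h1 := hasFDerivAt_snd.comp w hd
    have h2 : HasFDerivAt (fun z : ℝ × ℝ => z.2) (ContinuousLinearMap.snd ℝ ℝ ℝ) w := hasFDerivAt_snd
    have := congrArg (fun L => L v) (h1.unique h2)
    simpa using this
  have hx : (fderiv ℝ (shear τ b) w (1,0)).1 = shearJ τ b w := by
    have hl : HasDerivAt (fun x : ℝ => (x, w.2)) ((1:ℝ),(0:ℝ)) w.1 :=
      (hasDerivAt_id w.1).prodMk (hasDerivAt_const _ _)
    have h1 := hd.comp_hasDerivAt_of_eq w.1 hl rfl
    have h2 : HasDerivAt (fun x => shearX τ b (x, w.2)) _ w.1 :=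
      (hasFDerivAt_fst (p := shear τ b w)).comp_hasDerivAt_of_eq w.1 h1 rfl
    simpa using h2.unique (hasDerivAt_shearX h w)
  rw [area2_map]
  simp [area2, hy, hx]

lemma shear_injective (h : CutHyp τ b) : Function.Injective (shear τ b) := by
  intro w w' e
  rw [shear, shear, Prod.mk.injEq] at e
  obtain ⟨h1, h2⟩ := e
  have hm : StrictMono (fun x => shearX τ b (x, w.2)) :=
    strictMono_of_hasDerivAt_pos (f' := fun x => shearJ τ b (x, w.2))
      (fun x => hasDerivAt_shearX h (x, w.2)) (fun x => shearJ_pos h _)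
  refine Prod.ext (hm.injective ?_) h2
  show shearX τ b (w.1, w.2) = shearX τ b (w'.1, w.2)
  rw [h1, h2]

lemma shear_slit (h : CutHyp τ b) (w : ℝ × ℝ) :
    -(Complex.equivRealProdCLM.symm (shear τ b w)) ∈ Complex.slitPlane := by
  rw [Complex.mem_slitPlane_iff]
  by_cases hy : w.2 = 0
  · left
    have hs := abs_lt_sqrt_sq h.pos w.1
    have := le_abs_self w.1
    simp [shear, shearX, hy, h.one, Complex.equivRealProdCLM_symm_apply]
    linarith
  · right
    simp [shear, hy, Complex.equivRealProdCLM_symm_apply]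

lemma abs_shearX_le (h : CutHyp τ b) (w : ℝ × ℝ) : |shearX τ b w| ≤ |w.1| + τ := by
  have hs : √(w.1^2 + τ^2) ≤ |w.1| + τ := by
    apply (Real.sqrt_le_left (by have := h.pos; positivity)).2
    nlinarith [mul_nonneg (abs_nonneg w.1) h.pos.le, sq_abs w.1]
  have hs2 := abs_lt_sqrt_sq h.pos w.1
  obtain ⟨b0, b1⟩ := h.bd w.2
  have := h.pos
  rw [abs_le]
  unfold shearX
  rcases abs_cases w.1 with ⟨e, _⟩ | ⟨e, _⟩ <;> rw [e] at hs hs2 ⊢ <;> constructor <;> nlinarith

lemma polarG_shearPolar (h : CutHyp τ b) (w : ℝ × ℝ) :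
    polarG (shearPolar τ b w) = shear τ b w := by
  set z := Complex.equivRealProdCLM.symm (shear τ b w) with hz
  have hre : z.re = shearX τ b w := by simp [hz, shear, Complex.equivRealProdCLM_symm_apply]
  have him : z.im = w.2 := by simp [hz, shear, Complex.equivRealProdCLM_symm_apply]
  have hn : √((shearPolar τ b w).1 / π) = ‖-z‖ := by
    rw [norm_neg, Complex.norm_def, Complex.normSq_apply, hre, him]
    congr 1
    simp only [shearPolar]
    field_simp [Real.pi_ne_zero]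
  have ha : 2*π*(shearPolar τ b w).2 = π + Complex.arg (-z) := by
    simp only [shearPolar, angle01, ← hz]
    field_simp [Real.pi_ne_zero]
  unfold polarG
  rw [hn, ha, add_comm π, Real.cos_add_pi, Real.sin_add_pi, mul_neg, mul_neg,
    Complex.norm_mul_cos_arg, Complex.norm_mul_sin_arg]
  simp [shear, hre, him]

lemma shearPolar_mem (h : CutHyp τ b) (w : ℝ × ℝ) :
    0 < (shearPolar τ b w).1 ∧ 0 < (shearPolar τ b w).2 ∧ (shearPolar τ b w).2 < 1 := by
  have hs := shear_slit h w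
  refine ⟨?_, ?_, ?_⟩
  · have h0 := Complex.slitPlane_ne_zero hs
    have : (shearX τ b w)^2 + w.2^2 ≠ 0 := by
      intro h1
      obtain ⟨e1, e2⟩ := (add_eq_zero_iff_of_nonneg (sq_nonneg _) (sq_nonneg _)).1 h1
      apply h0
      have e : shear τ b w = 0 := Prod.ext (by simpa [shear] using e1) (by simpa [shear] using e2)
      rw [e]; simp
    have : 0 < (shearX τ b w)^2 + w.2^2 := lt_of_le_of_ne (by positivity) this.symm
    exact mul_pos Real.pi_pos this
  · have := Complex.neg_pi_lt_arg (-(Complex.equivRealProdCLM.symm (shear τ b w)))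
    simp only [shearPolar, angle01]
    have := Real.pi_pos
    apply div_pos <;> linarith
  · have h1 := Complex.arg_le_pi (-(Complex.equivRealProdCLM.symm (shear τ b w)))
    have h2 := Complex.slitPlane_arg_ne_pi hs
    simp only [shearPolar, angle01]
    rw [div_lt_one (by positivity)]
    have : Complex.arg (-(Complex.equivRealProdCLM.symm (shear τ b w))) < π :=
      lt_of_le_of_ne h1 h2
    linarith

lemma contDiff_shearPolar (h : CutHyp τ b) : ContDiff ℝ ∞ (shearPolar τ b) := by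
  refine ContDiff.prodMk (contDiff_const.mul
    (((contDiff_fst.comp (contDiff_shear h)).pow 2).add (contDiff_snd.pow 2))) ?_
  refine (ContDiff.add contDiff_const ?_).div_const _
  rw [contDiff_iff_contDiffAt]
  intro w
  have h1 : ContDiffAt ℝ ∞ Complex.log (-(Complex.equivRealProdCLM.symm (shear τ b w))) :=
    (Complex.contDiffAt_log (shear_slit h w)).restrict_scalars ℝ
  have h2 : ContDiffAt ℝ ∞ (fun v => -(Complex.equivRealProdCLM.symm (shear τ b v))) w :=
    ((Complex.equivRealProdCLM.symm : ℝ × ℝ →L[ℝ] ℂ).contDiff.comp (contDiff_shear h)).neg.contDiffAt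
  have h3 := (Complex.imCLM.contDiff.contDiffAt).comp w (h1.comp w h2)
  simpa [Function.comp_def, Complex.log_im] using h3

lemma shearPolar_injective (h : CutHyp τ b) : Function.Injective (shearPolar τ b) := by
  intro w w' e
  apply shear_injective h
  rw [← polarG_shearPolar h, ← polarG_shearPolar h, e]

lemma area2_fderiv_shearPolar (h : CutHyp τ b) (w a c : ℝ × ℝ) :
    area2 (fderiv ℝ (shearPolar τ b) w a) (fderiv ℝ (shearPolar τ b) w c)
      = shearJ τ b w * area2 a c := by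
  have hp := (shearPolar_mem h w).1
  rw [← area2_fderiv_polarG hp, ← area2_fderiv_shear h]
  have e : shear τ b = polarG ∘ shearPolar τ b := funext fun v => (polarG_shearPolar h v).symm
  rw [e, fderiv_comp w ((contDiffAt_polarG hp).differentiableAt (by simp))
    ((contDiff_shearPolar h).differentiable (by simp) w)]
  rfl

end

end Vale.Agent.P209
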