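import Vale.Agent.P209.Placement

/-!
Volume-sharp asymptotic packings and a uniform packing criterion.
-/

open Set Filter Topology

namespace Vale.Agent.P209

noncomputable section

variable {n : ℕ}

lemma exists_class {M : ℕ} {h r : ℝ} (hr : 0 < r) (hrh : r < h / (M+1)) :
    ∃ (c : Fin (M+1)) (j : ℕ), r < h / ((M+1+c.val : ℕ) : ℝ) / 2 ^ j ∧
      h / ((M+1+c.val : ℕ) : ℝ) / 2 ^ j ≤ ((M:ℝ)+2) / ((M:ℝ)+1) * r := by
  obtain ⟨j, h1, h2⟩ := exists_level hr hrh
  set y := h / (2 ^ j * r) with hy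
  have hM : (0:ℝ) < (M:ℝ) + 1 := by positivity
  have h2j : (0:ℝ) < 2 ^ j := by positivity
  have y1 : (M:ℝ) + 1 < y := by
    rw [div_div, lt_div_iff₀ (by positivity)] at h1
    rw [hy, lt_div_iff₀ (by positivity)]
    linarith
  have y2 : y ≤ 2 * ((M:ℝ) + 1) := by
    rw [div_div, div_le_iff₀ (by positivity)] at h2
    rw [hy, div_le_iff₀ (by positivity)]
    linarith
  set m := ⌈y⌉₊ - 1 with hm
  have c1 : M + 1 < ⌈y⌉₊ := Nat.lt_ceil.2 (by push_cast; exact y1)
  have c2 : ⌈y⌉₊ ≤ 2 * (M + 1) := Nat.ceil_le.2 (by push_cast; exact y2)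
  have hm' : M + 1 + (m - (M+1)) = m := by omega
  refine ⟨⟨m - (M+1), by omega⟩, j, ?_, ?_⟩ <;>
    simp only [hm'] <;>
    have hmy : (m:ℝ) < y := by
      have := Nat.ceil_lt_add_one (show (0:ℝ) ≤ y by linarith)
      have h' : (m:ℝ) + 1 = (⌈y⌉₊ : ℝ) := by exact_mod_cast (show m + 1 = ⌈y⌉₊ by omega)
      linarith
  · have hm0 : (0:ℝ) < m := by exact_mod_cast (show 0 < m by omega)
    rw [hy, lt_div_iff₀ (by positivity)] at hmy
    rw [div_div, lt_div_iff₀ (by positivity)]
    linarith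
  · have hmM : (M:ℝ) + 1 ≤ m := by exact_mod_cast (show M + 1 ≤ m by omega)
    have hm0 : (0:ℝ) < m := by linarith
    have hym : y ≤ (m:ℝ) + 1 := by
      have := Nat.le_ceil y
      have h' : (m:ℝ) + 1 = (⌈y⌉₊ : ℝ) := by exact_mod_cast (show m + 1 = ⌈y⌉₊ by omega)
      linarith
    rw [hy, div_le_iff₀ (by positivity)] at hym
    rw [div_div, div_le_iff₀ (by positivity)]
    refine hym.trans ?_
    have hkey : ((m:ℝ) + 1) ≤ ((M:ℝ)+2)/((M:ℝ)+1) * m := by
      rw [div_mul_eq_mul_div, le_div_iff₀ hM]; nlinarith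
    calc ((m:ℝ) + 1) * (2 ^ j * r) ≤ ((M:ℝ)+2)/((M:ℝ)+1) * m * (2 ^ j * r) :=
          mul_le_mul_of_nonneg_right hkey (by positivity)
      _ = _ := by ring

/-- Small balls fill disjoint cells of a common size up to the rounding factor. -/
theorem exists_small_cells {l M : ℕ} {ι : Type*} [Fintype ι] (F : ι → Cell n) {h : ℝ}
    (hh : 0 < h) (hF : ∀ a, (F a).size = h)
    (hd : ∀ a b, a ≠ b → Disjoint (F a).carrier (F b).carrier) (s : Fin l → ℝ)
    (hs : ∀ i, 0 < s i ∧ s i < h / (M+1))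
    (hsum : (((M:ℝ)+2)/((M:ℝ)+1)) ^ n * ∑ i, s i ^ n + ((M:ℝ)+1) * h ^ n
      ≤ Fintype.card ι * h ^ n) :
    ∃ D : Fin l → Cell n, (∀ i, s i < (D i).size ∧ ∃ a, (D i).carrier ⊆ (F a).carrier) ∧
      ∀ i j, i ≠ j → Disjoint (D i).carrier (D j).carrier := by
  classical
  choose c j hj1 hj2 using fun i => exists_class (M := M) (h := h) (hs i).1 (hs i).2
  let m : Fin (M+1) → ℕ := fun c => M + 1 + c.val
  have hm : ∀ c, 0 < m c := fun c => by simp only [m]; omega
  let load : Fin (M+1) → ℝ := fun cc =>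
    ∑ i : {i // c i = cc}, ((((2:ℝ) ^ n)⁻¹) ^ j i.1) / (m cc : ℝ) ^ n
  let cnt : Fin (M+1) → ℕ := fun cc => ⌈load cc⌉₊
  have hload0 : ∀ cc, 0 ≤ load cc := fun cc => Finset.sum_nonneg fun i _ => by positivity
  have hcard : Fintype.card (Σ cc, Fin (cnt cc)) ≤ Fintype.card ι := by
    have hterm : ∀ i, ((((2:ℝ) ^ n)⁻¹) ^ j i) / (m (c i) : ℝ) ^ n * h ^ n
        ≤ (((M:ℝ)+2)/((M:ℝ)+1)) ^ n * s i ^ n := fun i => by
      have hmp : (0:ℝ) < (m (c i) : ℝ) := by exact_mod_cast hm (c i)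
      rw [← mul_pow]
      refine le_trans (le_of_eq ?_) (pow_le_pow_left₀ (by positivity) (hj2 i) n)
      simp only [m]
      rw [inv_pow, ← pow_mul, mul_comm n (j i), pow_mul, div_pow, div_pow]
      field_simp
    have h1 : (∑ cc, load cc) * h ^ n ≤ (((M:ℝ)+2)/((M:ℝ)+1)) ^ n * ∑ i, s i ^ n := by
      rw [Finset.sum_mul, Finset.mul_sum,
        ← Fintype.sum_fiberwise c (fun i => (((M:ℝ)+2)/((M:ℝ)+1)) ^ n * s i ^ n)]
      refine Finset.sum_le_sum fun cc _ => ?_
      simp only [load]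
      rw [Finset.sum_mul]
      refine Finset.sum_le_sum fun i _ => ?_
      have := hterm i.1
      rwa [i.2] at this
    have h2 : (((∑ cc, cnt cc : ℕ)) : ℝ) * h ^ n ≤ (Fintype.card ι : ℝ) * h ^ n := by
      refine le_trans ?_ hsum
      refine le_trans (mul_le_mul_of_nonneg_right
        (show ((∑ cc, cnt cc : ℕ) : ℝ) ≤ (∑ cc, load cc) + ((M:ℝ)+1) from ?_) (pow_pos hh n).le) ?_
      · push_cast
        calc ∑ cc, (cnt cc : ℝ) ≤ ∑ cc, (load cc + 1) :=
              Finset.sum_le_sum fun cc _ => (Nat.ceil_lt_add_one (hload0 cc)).le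
          _ = _ := by simp [Finset.sum_add_distrib]
      · rw [add_mul]; linarith
    simp only [Fintype.card_sigma, Fintype.card_fin]
    exact_mod_cast le_of_mul_le_mul_right h2 (pow_pos hh n)
  obtain ⟨e⟩ := Function.Embedding.nonempty_of_card_le hcard
  let roots : (cc : Fin (M+1)) → Fin (cnt cc) × (Fin n → Fin (m cc)) → Cell n := fun cc b =>
    (F (e ⟨cc, b.1⟩)).sub b.2 (hm cc)
  have hclass : ∀ cc, ∃ D : {i // c i = cc} → Cell n,
      (∀ i, (D i).size = h / (m cc : ℝ) / 2 ^ j i.1 ∧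
        ∃ b, (D i).carrier ⊆ (F (e ⟨cc, b⟩)).carrier) ∧
      ∀ i i', i ≠ i' → Disjoint (D i).carrier (D i').carrier := by
    intro cc
    obtain ⟨D, h1, h2⟩ := exists_dyadic_cells (roots cc) (h := h / (m cc : ℝ))
      (fun b => by simp only [roots, Cell.sub_size, hF])
      (fun b b' hbb => by
        by_cases hb : b.1 = b'.1
        · have : b.2 ≠ b'.2 := fun h' => hbb (Prod.ext hb h')
          simp only [roots, hb]
          exact Cell.disjoint_sub _ _ this
        · exact (hd _ _ fun h' => hb (eq_of_heq (Sigma.mk.inj_iff.1 (e.injective h')).2)).mono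
            (Cell.carrier_sub_subset _ _ _) (Cell.carrier_sub_subset _ _ _))
      (fun i : {i // c i = cc} => j i.1) (by
        simp only [Fintype.card_prod, Fintype.card_fun, Fintype.card_fin, Nat.cast_mul, Nat.cast_pow]
        have := Nat.le_ceil (load cc)
        simp only [load, ← Finset.sum_div] at this
        rw [div_le_iff₀ (pow_pos (by exact_mod_cast hm cc) n)] at this
        simpa only [cnt, load, ← Finset.sum_div] using this)
    refine ⟨D, fun i => ⟨(h1 i).1, ?_⟩, h2⟩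
    obtain ⟨b, hb⟩ := (h1 i).2
    exact ⟨b.1, hb.trans (Cell.carrier_sub_subset _ _ _)⟩
  choose D hD hdD using hclass
  refine ⟨fun i => D (c i) ⟨i, rfl⟩, fun i => ⟨?_, ?_⟩, fun i i' hii => ?_⟩
  · simp only [(hD (c i) ⟨i, rfl⟩).1]; exact hj1 i
  · obtain ⟨b, hb⟩ := (hD (c i) ⟨i, rfl⟩).2
    exact ⟨_, hb⟩
  · by_cases hc : c i = c i'
    · have : ∀ (x : Fin (M+1)) (hx : c i' = x), D (c i') ⟨i', rfl⟩ = D x ⟨i', hx⟩ := by
        rintro x rfl; rfl
      show Disjoint (D (c i) ⟨i, rfl⟩).carrier (D (c i') ⟨i', rfl⟩).carrier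
      rw [this (c i) hc.symm]
      exact hdD _ _ _ fun h' => hii (congrArg Subtype.val h')
    · obtain ⟨b, hb⟩ := (hD (c i) ⟨i, rfl⟩).2
      obtain ⟨b', hb'⟩ := (hD (c i') ⟨i', rfl⟩).2
      exact (hd _ _ fun h' => hc (congrArg Sigma.fst (e.injective h'))).mono hb hb'

/-- Volume-sharp packings: few balls of any size and arbitrarily many small ones. -/
theorem hasBallPacking_add_small {k : ℕ} (hn : 1 ≤ n) {R : ℝ} (hR : 0 < R) {r : Fin k → ℝ}
    (hr : ∀ i, 0 < r i) (hvol : ∑ i, r i ^ n < R ^ n)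
    (hplace : Placeable n k R r) {δ : ℝ} (hδ : 0 < δ) :
    ∃ ε, 0 < ε ∧ ∀ (l : ℕ) (s : Fin l → ℝ), (∀ i, 0 < s i ∧ s i ≤ ε) →
      ∑ i, s i ^ n ≤ (1 - δ) * (R ^ n - ∑ i, r i ^ n) →
      HasBallPacking n (k + l) R (Fin.append r s) := by
  set W := R ^ n - ∑ i, r i ^ n with hW
  have hWp : 0 < W := sub_pos.2 hvol
  set d := min δ (1/2) with hddef
  have hd0 : 0 < d := lt_min hδ (by norm_num)
  have hd1 : d ≤ 1/2 := min_le_right _ _
  obtain ⟨D₀, hD₀, hdD₀⟩ := hplace
  -- shrink the large cells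
  have hev : ∀ᶠ τ in 𝓝[>] (0:ℝ), 0 < τ ∧ (∀ i, r i + τ < (D₀ i).size) ∧
      ∑ i, (r i + τ) ^ n < ∑ i, r i ^ n + d * W / 4 := by
    refine (eventually_mem_nhdsWithin (a := (0:ℝ)) (s := Ioi 0)).and ((eventually_all.2 fun i => ?_).and ?_)
    · have : Tendsto (fun τ : ℝ => r i + τ) (𝓝[>] 0) (𝓝 (r i)) := by
        simpa using ((show Continuous (fun τ : ℝ => r i + τ) by fun_prop).tendsto 0).mono_left nhdsWithin_le_nhds
      exact this.eventually (gt_mem_nhds (hD₀ i).2)
    · have : Tendsto (fun τ : ℝ => ∑ i, (r i + τ) ^ n) (𝓝[>] 0) (𝓝 (∑ i, r i ^ n)) := by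
        simpa using ((show Continuous (fun τ : ℝ => ∑ i, (r i + τ) ^ n) by fun_prop).tendsto
          0).mono_left nhdsWithin_le_nhds
      exact this.eventually (gt_mem_nhds (lt_add_of_pos_right _ (by positivity)))
  obtain ⟨τ, hτ0, hτ, hτvol⟩ := hev.exists
  let D : Fin k → Cell n := fun i => (D₀ i).shrink (r i + τ) (by linarith [hr i])
  have hDsub : ∀ i, (D i).carrier ⊆ (D₀ i).carrier := fun i =>
    (D₀ i).carrier_shrink _ (hτ i).le
  -- rounding parameter
  obtain ⟨M, hM⟩ : ∃ M : ℕ, (((M:ℝ)+2)/((M:ℝ)+1)) ^ n * (1 - d) < 1 - 3 * d / 4 := by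
    have : Tendsto (fun M : ℕ => (((M:ℝ)+2)/((M:ℝ)+1)) ^ n * (1 - d)) atTop (𝓝 (1 - d)) := by
      have h1 : Tendsto (fun M : ℕ => ((M:ℝ)+2)/((M:ℝ)+1)) atTop (𝓝 1) := by
        have h2 := (tendsto_one_div_add_atTop_nhds_zero_nat (𝕜 := ℝ)).const_add (1:ℝ)
        rw [add_zero] at h2
        refine h2.congr fun M => ?_
        field_simp; ring
      simpa using (h1.pow n).mul_const (1 - d)
    exact (this.eventually (gt_mem_nhds (by linarith))).exists
  -- grid
  have hsmall : ∀ᶠ Q : ℕ in atTop, ((M:ℝ)+1) * (R / Q) ^ n < d * W / 4 := by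
    have : Tendsto (fun Q : ℕ => ((M:ℝ)+1) * (R / Q) ^ n) atTop (𝓝 0) := by
      simpa [zero_pow (by omega : n ≠ 0)] using
        ((tendsto_const_div_atTop_nhds_zero_nat R).pow n).const_mul ((M:ℝ)+1)
    exact this.eventually (gt_mem_nhds (by positivity))
  obtain ⟨Q, hQ, hGex, hQsmall⟩ := ((eventually_gt_atTop 0).and
    ((eventually_free_cells hR D (η := d * W / 4) (by positivity)).and hsmall)).exists
  obtain ⟨G, hG, hGfree⟩ := hGex hQ
  have hh : 0 < R / Q := div_pos hR (by exact_mod_cast hQ)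
  refine ⟨R / Q / (M+1) / 2, by positivity, fun l s hs hsum => ?_⟩
  have hsum' : ∑ i, s i ^ n ≤ (1 - d) * W :=
    hsum.trans (mul_le_mul_of_nonneg_right (by linarith [min_le_left δ (1/2:ℝ)]) hWp.le)
  obtain ⟨E, hE, hdE⟩ := exists_small_cells
    (fun g : G => (rootCell n R hR).sub g.1 hQ) (M := M) hh
    (fun g => by simp [Cell.sub_size, rootCell, Cell.std])
    (fun a b hab => Cell.disjoint_sub _ _ fun h' => hab (Subtype.ext h')) s
    (fun i => ⟨(hs i).1, (hs i).2.trans_lt (half_lt_self (by positivity))⟩) (by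
      rw [Fintype.card_coe]
      refine le_trans ?_ hG
      have hsz : ∑ i, (D i).size ^ n = ∑ i, (r i + τ) ^ n := rfl
      rw [hsz]
      have := mul_le_mul_of_nonneg_left hsum'
        (show (0:ℝ) ≤ (((M:ℝ)+2)/((M:ℝ)+1)) ^ n by positivity)
      have := mul_le_mul_of_nonneg_right hM.le hWp.le
      nlinarith)
  refine hasBallPacking_of_cells (fun i => ?_) (Fin.append D E) (fun i => ?_) (fun i => ?_) ?_
  · induction i using Fin.addCases with
    | left a => simpa using hr a
    | right b => simpa using (hs b).1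
  · induction i using Fin.addCases with
    | left a => simpa using (hDsub a).trans (hD₀ a).1
    | right b =>
      obtain ⟨g, hg⟩ := (hE b).2
      simpa using hg.trans ((Cell.carrier_sub_subset _ _ _).trans (carrier_rootCell n hR).subset)
  · induction i using Fin.addCases with
    | left a => simp [D, Cell.shrink, hτ0]
    | right b => simpa using (hE b).1
  · have hmix : ∀ a b, Disjoint (D a).carrier (E b).carrier := fun a b => by
      obtain ⟨g, hg⟩ := (hE b).2
      exact ((hGfree g.1 g.2 a).mono_left hg).symm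
    intro i i'
    induction i using Fin.addCases with
    | left a =>
      induction i' using Fin.addCases with
      | left a' =>
        intro h; simp only [Fin.append_left]
        exact (hdD₀ a a' fun h' => h (by rw [h'])).mono (hDsub a) (hDsub a')
      | right b' => intro _; simpa using hmix a b'
    | right b =>
      induction i' using Fin.addCases with
      | left a' => intro _; simpa using (hmix a' b).symm
      | right b' =>
        intro h; simp only [Fin.append_right]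
        exact hdE b b' fun h' => h (by rw [h'])

lemma pow_sub_pow_le' {a b : ℝ} (ha : 0 ≤ b) (hab : b ≤ a) (m : ℕ) :
    a ^ (m+1) - b ^ (m+1) ≤ (m+1) * a ^ m * (a - b) := by
  induction m with
  | zero => simp
  | succ m ih =>
    have h1 := pow_le_pow_left₀ ha hab (m+1)
    have h2 := mul_le_mul_of_nonneg_left ih (ha.trans hab)
    have h3 := mul_le_mul_of_nonneg_right h1 (sub_nonneg.2 hab)
    rw [pow_succ a (m+1), pow_succ b (m+1)]
    push_cast
    rw [pow_succ a m] at *
    nlinarith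

/-- Volume and the two-ball condition suffice for any number of balls, up to a constant factor
depending only on the dimension in front of the volume of all but one ball. -/
theorem hasBallPacking_uniform {k : ℕ} (hn : 1 ≤ n) {R : ℝ} (hR : 0 < R) {r : Fin k → ℝ}
    (hr : ∀ i, 0 < r i) (hpair : ∀ i j, i < j → r i + r j < R) (i₀ : Fin k)
    (hvol : r i₀ ^ n + (n:ℝ) * 4 ^ n * ∑ j ∈ Finset.univ.erase i₀, r j ^ n < R ^ n) :
    HasBallPacking n k R r := by
  classical
  obtain ⟨N, rfl⟩ : ∃ N, n = N + 1 := ⟨n - 1, by omega⟩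
  have hi₀ : r i₀ < R := by
    refine lt_of_pow_lt_pow_left₀ (N+1) hR.le (lt_of_le_of_lt ?_ hvol)
    exact le_add_of_nonneg_right (mul_nonneg (by positivity)
      (Finset.sum_nonneg fun j _ => (pow_pos (hr j) _).le))
  obtain ⟨s, hs0, hs, hsr⟩ := exists_bound_between (fun i : {i : Fin k // i ≠ i₀} => r i.1)
    (show (R - r i₀) / 2 < R - r i₀ by linarith) fun i => by
      rcases lt_or_gt_of_ne i.2 with h | h
      · linarith [hpair i.1 i₀ h]
      · linarith [hpair i₀ i.1 h]
  have hsp : 0 < s := lt_trans (by linarith) hs0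
  obtain ⟨p, hp⟩ : ∃ p : ℕ, ⌊R / s⌋₊ = p + 1 := by
    have : 1 ≤ ⌊R / s⌋₊ := Nat.le_floor (by
      rw [Nat.cast_one, le_div_iff₀ hsp]; linarith [hr i₀])
    exact ⟨⌊R / s⌋₊ - 1, by omega⟩
  have hp1 : ((p:ℝ)+1) * s ≤ R := by
    have := Nat.floor_le (div_pos hR hsp).le
    rw [hp, le_div_iff₀ hsp] at this
    exact_mod_cast this
  have hp2 : R ≤ 2 * ((p:ℝ)+1) * s := by
    have := Nat.lt_floor_add_one (R / s)
    rw [hp, div_lt_iff₀ hsp] at this
    push_cast at this
    nlinarith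
  obtain ⟨G, h1, h2, h3⟩ := exists_layer_cells (N := N) (R := R) (p := p) hsp hp1
  choose lev hl1 hl2 using fun i : {i : Fin k // i ≠ i₀} => exists_level (hr i.1) (hsr i)
  have hcard : ((p:ℝ)+1) ^ N ≤ (Fintype.card {f : Fin (N+1) → Fin (p+1) // ∃ l, f l = Fin.last p} : ℕ) := by
    rw [card_touching]
    have : (p+1) ^ N + p ^ (N+1) ≤ (p+1) ^ (N+1) := by
      rw [pow_succ, pow_succ]
      have := Nat.mul_le_mul_right p (Nat.pow_le_pow_left (Nat.le_succ p) N)
      nlinarith
    exact_mod_cast Nat.le_sub_of_add_le this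
  obtain ⟨D, hD, hdD⟩ := exists_dyadic_cells
    (fun g : {f : Fin (N+1) → Fin (p+1) // ∃ l, f l = Fin.last p} => G g.1) (h := s)
    (fun g => (h1 _).1) (fun a b h => h2 _ _ fun e => h (Subtype.ext e)) lev (by
      have hsn : 0 < s ^ (N+1) := pow_pos hsp _
      refine le_of_mul_le_mul_right ?_ hsn
      rw [Finset.sum_mul]
      calc ∑ i, (((2:ℝ) ^ (N+1))⁻¹) ^ lev i * s ^ (N+1)
          ≤ ∑ i : {i : Fin k // i ≠ i₀}, (2:ℝ) ^ (N+1) * r i.1 ^ (N+1) := by
            refine Finset.sum_le_sum fun i _ => ?_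
            rw [← mul_pow]
            refine le_trans (le_of_eq ?_) (pow_le_pow_left₀ (by positivity) (hl2 i) _)
            rw [inv_pow, ← pow_mul, mul_comm (N+1) (lev i), pow_mul, div_pow]
            field_simp
        _ = (2:ℝ) ^ (N+1) * ∑ j ∈ Finset.univ.erase i₀, r j ^ (N+1) := by
            rw [← Finset.mul_sum]
            congr 1
            exact (Finset.sum_subtype _ (fun x => by simp) (fun j => r j ^ (N+1))).symm
        _ ≤ (((p:ℝ)+1) ^ N) * s ^ (N+1) := by
            have hb := pow_sub_pow_le' (hr i₀).le hi₀.le N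
            have hc := pow_le_pow_left₀ hR.le hp2 N
            set S := ∑ j ∈ Finset.univ.erase i₀, r j ^ (N+1)
            have hd : R ^ N * (R - r i₀) ≤ (2 * ((p:ℝ)+1) * s) ^ N * (2 * s) :=
              mul_le_mul hc (by linarith) (by linarith) (by positivity)
            have he := mul_le_mul_of_nonneg_left hd (by positivity : (0:ℝ) ≤ (N:ℝ) + 1)
            rw [mul_pow, mul_pow] at he
            have h4 : (4:ℝ) ^ (N+1) = 2 ^ (N+1) * 2 ^ (N+1) := by rw [← mul_pow]; norm_num
            rw [h4] at hvol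
            push_cast at hvol
            rw [pow_succ (2:ℝ) N] at hvol ⊢
            rw [pow_succ s N]
            refine le_of_mul_le_mul_left ?_ (show (0:ℝ) < ((N:ℝ)+1) * (2 ^ N * 2) by positivity)
            linarith
        _ ≤ _ := mul_le_mul_of_nonneg_right hcard hsn.le)
  have hRs : 0 < R - s := by linarith [hr i₀]
  let C : Cell (N+1) := rootCell (N+1) (R - s) hRs
  have hCeq : C.carrier = simplexSet (N+1) (R - s) := carrier_rootCell _ hRs
  have hC : ∀ i, Disjoint C.carrier (D i).carrier := fun i => by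
    obtain ⟨g, hg⟩ := (hD i).2
    refine Disjoint.mono_right hg (Set.disjoint_left.2 fun x hx hx' => ?_)
    rw [hCeq] at hx
    exact lt_asymm hx.2 (h3 g.1 g.2 x hx')
  refine hasBallPacking_of_cells hr (fun i => if h : i = i₀ then C else D ⟨i, h⟩)
    (fun i => ?_) (fun i => ?_) (fun i j hij => ?_)
  · by_cases h : i = i₀
    · simp only [dif_pos h, hCeq]
      exact fun x hx => ⟨hx.1, hx.2.trans (by linarith)⟩
    · obtain ⟨g, hg⟩ := (hD ⟨i, h⟩).2
      simp only [dif_neg h]
      exact hg.trans (h1 _).2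
  · by_cases h : i = i₀
    · simp only [dif_pos h]; subst h
      exact show r i < R - s by linarith
    · simp only [dif_neg h, (hD ⟨i, h⟩).1]
      exact hl1 ⟨i, h⟩
  · by_cases hi : i = i₀ <;> by_cases hj : j = i₀
    · exact absurd (hi.trans hj.symm) hij
    · simp only [dif_pos hi, dif_neg hj]; exact hC _
    · simp only [dif_pos hj, dif_neg hi]; exact (hC _).symm
    · simp only [dif_neg hi, dif_neg hj]
      exact hdD _ _ fun e => hij (congrArg Subtype.val e)

end

end Vale.Agent.P209
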