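import Vale.Agent.P209.Sharp

/-!
Packing criterion with the volume of all balls but one weighted by `3 ^ n`.
-/

open Set Filter Topology

namespace Vale.Agent.P209

noncomputable section

lemma pow_sub_pow_le_shift {a b e : ℝ} (hb : 0 ≤ b) (hab : b ≤ a) (he : 0 ≤ e) (m : ℕ) :
    a ^ m - b ^ m ≤ (a + e) ^ m - (b + e) ^ m := by
  induction m with
  | zero => simp
  | succ m ih =>
    have h1 : 0 ≤ a ^ m - b ^ m := sub_nonneg.2 (pow_le_pow_left₀ hb hab m)
    have h2 := mul_le_mul (le_add_of_nonneg_right (a := a) he) ih h1 (by linarith)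
    have h3 := mul_le_mul_of_nonneg_left
      (pow_le_pow_left₀ hb (le_add_of_nonneg_right (a := b) he) m) (sub_nonneg.2 hab)
    rw [pow_succ, pow_succ, pow_succ, pow_succ]
    nlinarith

/-- The next layer of a grid is at most `((p + 2) / (p + 1)) ^ n` times the present one. -/
lemma layer_ratio {p : ℝ} (hp : 1 ≤ p) (m : ℕ) :
    (2:ℝ) ^ m * ((p+2) ^ m - (p+1) ^ m) ≤ 3 ^ m * ((p+1) ^ m - p ^ m) := by
  have hp1 : 0 < p + 1 := by linarith
  have hc : (p+2) / (p+1) ≤ 3 / 2 := by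
    rw [div_le_div_iff₀ hp1 (by norm_num)]; linarith
  have hc0 : 0 ≤ (p+2) / (p+1) := by positivity
  have h1 : ((p+2) / (p+1)) ^ m * p ^ m ≤ (p+1) ^ m := by
    rw [← mul_pow]
    refine pow_le_pow_left₀ (by positivity) ?_ m
    rw [div_mul_eq_mul_div, div_le_iff₀ hp1]
    nlinarith
  have h2 : (p+2) ^ m - (p+1) ^ m ≤ ((p+2) / (p+1)) ^ m * ((p+1) ^ m - p ^ m) := by
    rw [mul_sub, ← mul_pow, div_mul_cancel₀ _ hp1.ne']
    linarith
  have h3 : ((p+2) / (p+1)) ^ m ≤ (3 / 2 : ℝ) ^ m := pow_le_pow_left₀ hc0 hc m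
  have h4 : 0 ≤ (p+1) ^ m - p ^ m :=
    sub_nonneg.2 (pow_le_pow_left₀ (by linarith) (by linarith) m)
  calc (2:ℝ) ^ m * ((p+2) ^ m - (p+1) ^ m)
      ≤ 2 ^ m * ((3 / 2 : ℝ) ^ m * ((p+1) ^ m - p ^ m)) :=
        mul_le_mul_of_nonneg_left (h2.trans (mul_le_mul_of_nonneg_right h3 h4)) (by positivity)
    _ = _ := by rw [← mul_assoc, ← mul_pow]; norm_num

/-- The two-ball condition and the volume condition, with the volume of all balls but one
multiplied by `3 ^ n`, suffice for any number of balls. -/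
theorem hasBallPacking_three_pow {n k : ℕ} (hn : 2 ≤ n) {R : ℝ} (hR : 0 < R) {r : Fin k → ℝ}
    (hr : ∀ i, 0 < r i) (hpair : ∀ i j, i < j → r i + r j < R) (i₀ : Fin k)
    (hvol : r i₀ ^ n + (3:ℝ) ^ n * ∑ j ∈ Finset.univ.erase i₀, r j ^ n < R ^ n) :
    HasBallPacking n k R r := by
  classical
  obtain ⟨N, rfl⟩ : ∃ N, n = N + 1 := ⟨n - 1, by omega⟩
  set S := ∑ j ∈ Finset.univ.erase i₀, r j ^ (N+1) with hSdef
  have hS0 : 0 ≤ S := Finset.sum_nonneg fun j _ => (pow_pos (hr j) _).le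
  have h3pos : (0:ℝ) < 3 ^ (N+1) := by positivity
  have hi₀ : r i₀ < R := by
    refine lt_of_pow_lt_pow_left₀ (N+1) hR.le ?_
    linarith [mul_nonneg h3pos.le hS0]
  have hS3 : 3 ^ (N+1) * S < R ^ (N+1) := by linarith [pow_pos (hr i₀) (N+1)]
  set d := min (R - r i₀) (R / 2) with hddef
  have hd : 0 < d := lt_min (by linarith) (by linarith)
  have hd1 : d ≤ R - r i₀ := min_le_left _ _
  have hd2 : d ≤ R / 2 := min_le_right _ _
  have hrd : ∀ j : {j : Fin k // j ≠ i₀}, r j.1 < d := fun j => by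
    refine lt_min ?_ ?_
    · rcases lt_or_gt_of_ne j.2 with h | h
      · linarith [hpair j.1 i₀ h]
      · linarith [hpair i₀ j.1 h]
    · have h : (3 * r j.1) ^ (N+1) < R ^ (N+1) := by
        rw [mul_pow]
        refine lt_of_le_of_lt (mul_le_mul_of_nonneg_left ?_ h3pos.le) hS3
        exact Finset.single_le_sum (f := fun i => r i ^ (N+1)) (fun i _ => (pow_pos (hr i) _).le)
          (Finset.mem_erase.2 ⟨j.2, Finset.mem_univ _⟩)
      linarith [lt_of_pow_lt_pow_left₀ (N+1) hR.le h, hr j.1]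
  obtain ⟨p, hp⟩ : ∃ p : ℕ, ⌊R / d⌋₊ = p + 2 := by
    have : 2 ≤ ⌊R / d⌋₊ := Nat.le_floor (by
      rw [le_div_iff₀ hd]; push_cast; linarith)
    exact ⟨⌊R / d⌋₊ - 2, by omega⟩
  have hp1 : ((p:ℝ)+2) * d ≤ R := by
    have := Nat.floor_le (div_pos hR hd).le
    rw [hp, le_div_iff₀ hd] at this
    exact_mod_cast this
  have hp2 : R ≤ ((p:ℝ)+3) * d := by
    have := Nat.lt_floor_add_one (R / d)
    rw [hp, div_lt_iff₀ hd] at this
    push_cast at this
    linarith
  set L : ℝ := ((p:ℝ)+2) ^ (N+1) - ((p:ℝ)+1) ^ (N+1) with hLdef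
  have hL0 : 0 < L := sub_pos.2 (pow_lt_pow_left₀ (by linarith) (by positivity) (by omega))
  have hkey : 2 ^ (N+1) * S < L * d ^ (N+1) := by
    by_cases hcase : R - r i₀ ≤ R / 2
    · have hde : d = R - r i₀ := min_eq_left hcase
      have hA := pow_sub_pow_le_shift (e := ((p:ℝ)+3) * d - R) (hr i₀).le hi₀.le
        (by linarith) (N+1)
      have e1 : R + (((p:ℝ)+3) * d - R) = ((p:ℝ)+3) * d := by ring
      have e2 : r i₀ + (((p:ℝ)+3) * d - R) = ((p:ℝ)+2) * d := by rw [hde]; ring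
      rw [e1, e2, mul_pow, mul_pow] at hA
      have hrat := layer_ratio (p := (p:ℝ)+1) (by linarith [p.cast_nonneg (α := ℝ)]) (N+1)
      rw [show (p:ℝ)+1+2 = (p:ℝ)+3 by ring, show (p:ℝ)+1+1 = (p:ℝ)+2 by ring] at hrat
      have h2 := mul_le_mul_of_nonneg_right hrat (pow_pos hd (N+1)).le
      have h1 : 2 ^ (N+1) * (3 ^ (N+1) * S) <
          2 ^ (N+1) * ((((p:ℝ)+3) ^ (N+1) - ((p:ℝ)+2) ^ (N+1)) * d ^ (N+1)) :=
        mul_lt_mul_of_pos_left (by linarith) (by positivity)
      refine lt_of_mul_lt_mul_left ?_ h3pos.le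
      linarith
    · have hde : d = R / 2 := min_eq_right (le_of_not_ge hcase)
      have hp0 : p = 0 := by
        have : (p:ℝ) ≤ 0 := by rw [hde] at hp1; nlinarith
        exact_mod_cast le_antisymm this p.cast_nonneg
      have hq : (2/3 : ℝ) ^ (N+1) ≤ 1 - (1/2) ^ (N+1) := by
        have a := pow_le_pow_of_le_one (by norm_num : (0:ℝ) ≤ 2/3) (by norm_num) hn
        have b := pow_le_pow_of_le_one (by norm_num : (0:ℝ) ≤ 1/2) (by norm_num) hn
        norm_num at a b ⊢
        linarith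
      have hL : L * d ^ (N+1) = (1 - (1/2:ℝ) ^ (N+1)) * R ^ (N+1) := by
        rw [hLdef, hde, hp0, div_pow, div_pow]
        push_cast
        rw [zero_add, zero_add, one_pow]
        field_simp
      rw [hL]
      calc 2 ^ (N+1) * S = (2/3 : ℝ) ^ (N+1) * (3 ^ (N+1) * S) := by
            rw [← mul_assoc, ← mul_pow]; norm_num
        _ < (2/3 : ℝ) ^ (N+1) * R ^ (N+1) := mul_lt_mul_of_pos_left hS3 (by positivity)
        _ ≤ _ := mul_le_mul_of_nonneg_right hq (pow_pos hR _).le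
  obtain ⟨s, hsd, hsr, hsp, hSs⟩ : ∃ s, s < d ∧ (∀ j : {j : Fin k // j ≠ i₀}, r j.1 < s) ∧
      0 < s ∧ 2 ^ (N+1) * S < L * s ^ (N+1) := by
    have ht : Tendsto (fun s : ℝ => L * s ^ (N+1)) (𝓝[<] d) (𝓝 (L * d ^ (N+1))) :=
      ((show Continuous (fun s : ℝ => L * s ^ (N+1)) by fun_prop).tendsto d).mono_left
        nhdsWithin_le_nhds
    exact ((eventually_mem_nhdsWithin (a := d) (s := Iio d)).and
      ((eventually_all.2 fun j => eventually_nhdsWithin_of_eventually_nhds (lt_mem_nhds (hrd j))).and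
        ((eventually_nhdsWithin_of_eventually_nhds (lt_mem_nhds hd)).and
          (ht.eventually (lt_mem_nhds hkey))))).exists
  obtain ⟨G, h1, h2, h3⟩ := exists_layer_cells (N := N) (R := R) (p := p+1) hsp (by
    push_cast; nlinarith)
  choose lev hl1 hl2 using fun j : {j : Fin k // j ≠ i₀} => exists_level (hr j.1) (hsr j)
  have hcard : L = (Fintype.card {f : Fin (N+1) → Fin (p+1+1) //
      ∃ l, f l = Fin.last (p+1)} : ℕ) := by
    rw [card_touching, Nat.cast_sub (Nat.pow_le_pow_left (Nat.le_succ _) _), hLdef]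
    push_cast
    ring
  obtain ⟨D, hD, hdD⟩ := exists_dyadic_cells
    (fun g : {f : Fin (N+1) → Fin (p+1+1) // ∃ l, f l = Fin.last (p+1)} => G g.1) (h := s)
    (fun g => (h1 _).1) (fun a b h => h2 _ _ fun e => h (Subtype.ext e)) lev (by
      refine le_of_mul_le_mul_right ?_ (pow_pos hsp (N+1))
      rw [Finset.sum_mul, ← hcard]
      refine le_trans ?_ hSs.le
      rw [hSdef, Finset.sum_subtype (Finset.univ.erase i₀) (p := fun j => j ≠ i₀)
        (fun x => by simp) (fun j => r j ^ (N+1)), Finset.mul_sum]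
      refine Finset.sum_le_sum fun i _ => ?_
      rw [← mul_pow]
      refine le_trans (le_of_eq ?_) (pow_le_pow_left₀ (by positivity) (hl2 i) _)
      rw [inv_pow, ← pow_mul, mul_comm (N+1) (lev i), pow_mul, div_pow]
      field_simp)
  have hRs : 0 < R - s := by linarith
  let C : Cell (N+1) := rootCell (N+1) (R - s) hRs
  have hCeq : C.carrier = simplexSet (N+1) (R - s) := carrier_rootCell _ hRs
  have hC : ∀ i, Disjoint C.carrier (D i).carrier := fun i => by
    obtain ⟨g, hg⟩ := (hD i).2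
    refine Disjoint.mono_right hg (Set.disjoint_left.2 fun x hx hx' => ?_)
    rw [hCeq] at hx
    exact lt_asymm hx.2 (h3 g.1 g.2 x hx')
  refine hasBallPacking_of_cells hr (fun i => if h : i = i₀ then C else D ⟨i, h⟩)
    (fun i => ?_) (fun i => ?_) (fun i j hij => ?_)
  · by_cases h : i = i₀
    · simp only [dif_pos h, hCeq]
      exact fun x hx => ⟨hx.1, hx.2.trans (by linarith)⟩
    · obtain ⟨g, hg⟩ := (hD ⟨i, h⟩).2
      simp only [dif_neg h]
      exact hg.trans (h1 _).2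
  · by_cases h : i = i₀
    · simp only [dif_pos h]; subst h
      exact show r i < R - s by linarith
    · simp only [dif_neg h, (hD ⟨i, h⟩).1]
      exact hl1 ⟨i, h⟩
  · by_cases hi : i = i₀ <;> by_cases hj : j = i₀
    · exact absurd (hi.trans hj.symm) hij
    · simp only [dif_pos hi, dif_neg hj]; exact hC _
    · simp only [dif_pos hj, dif_neg hi]; exact (hC _).symm
    · simp only [dif_neg hi, dif_neg hj]
      exact hdD _ _ fun e => hij (congrArg Subtype.val e)

end

end Vale.Agent.P209
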